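import Crest.Agent.QAC.Defs

/-! Asymptotics of the bootstrap scales (S0539). -/

set_option autoImplicit false
open Filter Topology

namespace Crest.Agent.QAC

theorem Asym.log_small {g : ℝ} (hg : 0 < g) :
    ∀ᶠ N : ℕ in atTop, Real.log (300 * (4 * N + 7 : ℝ)) + 3 ≤ (N : ℝ) ^ g := by
  have h1 := (isLittleO_log_rpow_atTop hg).bound (c := 1 / 4) (by norm_num)
  have h2 := (tendsto_rpow_atTop hg).eventually_ge_atTop 6
  have h3 : ∀ᶠ x : ℝ in atTop, Real.log (300 * (4 * x + 7)) + 3 ≤ x ^ g := by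
    filter_upwards [h1, h2, eventually_ge_atTop (1300 : ℝ)] with x a b c
    have h4 : Real.log (300 * (4 * x + 7)) ≤ Real.log (x ^ 2) :=
      Real.log_le_log (by positivity) (by nlinarith)
    rw [Real.log_pow] at h4
    rw [Real.norm_eq_abs, Real.norm_eq_abs, abs_of_nonneg (by linarith : 0 ≤ x ^ g)] at a
    have := le_abs_self (Real.log x)
    push_cast at h4
    linarith
  exact tendsto_natCast_atTop_atTop.eventually h3

theorem Asym.reach (j : ℕ) : ∀ g : ℝ, 0 < g →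
    ∀ᶠ N : ℕ in atTop, ∃ K, Reach N j K ∧ 1 ≤ K ∧ (K : ℝ) ≤ (N : ℝ) ^ g := by
  induction j with
  | zero =>
    intro g hg
    filter_upwards [eventually_ge_atTop 1] with N hN
    exact ⟨1, Reach.zero, le_rfl, by
      simpa using Real.one_le_rpow (by exact_mod_cast hN) hg.le⟩
  | succ j ih =>
    intro g hg
    set n := ⌈2 / g⌉₊ with hn
    have hn1 : 2 / g ≤ n := Nat.le_ceil _
    have hn0 : (0 : ℝ) < n := lt_of_lt_of_le (by positivity) hn1
    have hn2 : n ≠ 0 := by exact_mod_cast hn0.ne'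
    set g' := g / (2 * (6 * n + 1)) with hg'
    have hg0 : 0 < g' := by positivity
    have h2 := (tendsto_natCast_atTop_atTop (R := ℝ)).eventually
      ((tendsto_rpow_atTop hg0).eventually_ge_atTop (2 * 32 ^ n))
    filter_upwards [ih g' hg0, Asym.log_small hg0, h2, eventually_ge_atTop 1] with N hK hL hC hN
    obtain ⟨K, hK, hK1, hK2⟩ := hK
    have hN1 : (1 : ℝ) ≤ N := by exact_mod_cast hN
    set y := (N : ℝ) ^ g' with hy
    set L := ⌈Real.log (300 * (4 * N + 7 : ℝ))⌉₊ with hLd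
    set M := ⌈(N : ℝ) ^ (1 / n : ℝ)⌉₊ with hM
    have hl0 : 0 < Real.log (300 * (4 * N + 7 : ℝ)) := Real.log_pos (by linarith)
    have hL1 : (L : ℝ) + 2 ≤ y := by
      have := Nat.ceil_lt_add_one hl0.le
      linarith
    have hL0 : 1 ≤ L := Nat.one_le_iff_ne_zero.2 (Nat.ceil_pos.2 hl0).ne'
    have hr1 : 1 ≤ (N : ℝ) ^ (1 / n : ℝ) := Real.one_le_rpow hN1 (by positivity)
    have hM1 : 1 ≤ M := Nat.one_le_iff_ne_zero.2 (Nat.ceil_pos.2 (by linarith)).ne'
    have hM2 : (M : ℝ) ≤ 2 * (N : ℝ) ^ (g / 2) := by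
      have a := Nat.ceil_lt_add_one (le_trans zero_le_one hr1)
      have b : (N : ℝ) ^ (1 / n : ℝ) ≤ (N : ℝ) ^ (g / 2) := by
        refine Real.rpow_le_rpow_of_exponent_le hN1 ?_
        rw [div_le_iff₀ hg] at hn1
        rw [div_le_iff₀ hn0]
        linarith
      linarith
    refine ⟨_, Reach.step L M n hK hM1 ?_ ?_, ?_, ?_⟩
    · have a : ((N : ℝ) ^ (1 / n : ℝ)) ^ n ≤ (M : ℝ) ^ n :=
        pow_le_pow_left₀ (by positivity) (Nat.le_ceil _) n
      rw [one_div, Real.rpow_inv_natCast_pow (by positivity) hn2] at a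
      exact_mod_cast a
    · rw [← Real.log_le_iff_le_exp (by positivity)]
      exact Nat.le_ceil _
    · refine Nat.one_le_iff_ne_zero.2 ?_
      have : K ≠ 0 := by omega
      have : L ≠ 0 := by omega
      have : M ≠ 0 := by omega
      positivity
    · have hy0 : 0 ≤ y := by positivity
      have a : (K : ℝ) * (L + 2) * L ≤ y ^ 3 := by
        calc (K : ℝ) * (L + 2) * L ≤ y * y * y := by gcongr; linarith
          _ = y ^ 3 := by ring
      have b : (2 * (4 * K * (L + 2) * L) ^ 2 : ℝ) ≤ 32 * y ^ 6 := by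
        have : (0 : ℝ) ≤ K * (L + 2) * L := by positivity
        nlinarith
      have e : (N : ℝ) ^ g = (N : ℝ) ^ (g / 2) * y ^ (6 * n + 1) := by
        rw [hy, ← Real.rpow_natCast, ← Real.rpow_mul (by positivity),
          ← Real.rpow_add (by positivity)]
        congr 1
        rw [hg']
        push_cast
        field_simp
        ring
      push_cast
      calc (M : ℝ) * (2 * (4 * K * (L + 2) * L) ^ 2) ^ n
          ≤ (2 * (N : ℝ) ^ (g / 2)) * (32 * y ^ 6) ^ n := by gcongr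
        _ = (N : ℝ) ^ (g / 2) * ((2 * 32 ^ n) * y ^ (6 * n)) := by rw [mul_pow, ← pow_mul]; ring
        _ ≤ (N : ℝ) ^ (g / 2) * (y * y ^ (6 * n)) := by gcongr
        _ = _ := by rw [e]; ring

theorem asym : AsymStmt := by
  intro d c ε hε
  obtain ⟨N₀, hN₀⟩ := eventually_atTop.1 (Asym.reach d (1 / (2 * c + 2)) (by positivity))
  have h1 : Tendsto (fun n : ℕ => 1200 * Real.exp (-(√(n : ℝ) / 2))) atTop (𝓝 (1200 * 0)) :=
    (Real.tendsto_exp_neg_atTop_nhds_zero.comp
      ((Real.tendsto_sqrt_atTop.comp tendsto_natCast_atTop_atTop).atTop_div_const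
        two_pos)).const_mul _
  obtain ⟨n₁, hn₁⟩ := eventually_atTop.1 (h1.eventually (gt_mem_nhds (by simpa using hε)))
  refine ⟨max (max N₀ n₁) 2, fun n hn N h2 h3 => ?_⟩
  have a1 : N₀ ≤ n := le_trans (le_trans (le_max_left _ _) (le_max_left _ _)) hn
  have a2 : n₁ ≤ n := le_trans (le_trans (le_max_right _ _) (le_max_left _ _)) hn
  have a3 : 2 ≤ n := le_trans (le_max_right _ _) hn
  obtain ⟨K, hK, hK1, hK2⟩ := hN₀ N (a1.trans h2)
  refine ⟨K, hK, lt_of_le_of_lt ?_ (hn₁ n a2)⟩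
  have b1 : (2 : ℝ) ≤ n := by exact_mod_cast a3
  have b2 : (K : ℝ) ≤ √(n : ℝ) := by
    refine hK2.trans ?_
    have : (N : ℝ) ≤ (n : ℝ) ^ c := by exact_mod_cast h3
    calc (N : ℝ) ^ (1 / (2 * c + 2) : ℝ) ≤ ((n : ℝ) ^ c) ^ (1 / (2 * c + 2) : ℝ) := by gcongr
      _ = (n : ℝ) ^ (c * (1 / (2 * c + 2)) : ℝ) := by
        rw [Real.rpow_mul (by positivity), Real.rpow_natCast]
      _ ≤ (n : ℝ) ^ (1 / 2 : ℝ) := by
        refine Real.rpow_le_rpow_of_exponent_le (by linarith) ?_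
        rw [mul_one_div, div_le_div_iff₀ (by positivity) (by positivity)]
        linarith
      _ = _ := (Real.sqrt_eq_rpow _).symm
  have b3 : (0 : ℝ) < K := by exact_mod_cast hK1
  have b4 : √(n : ℝ) / 2 ≤ ((n - 1 : ℕ) : ℝ) / K := by
    rw [Nat.cast_sub (by omega), div_le_div_iff₀ two_pos b3]
    have := Real.mul_self_sqrt (by positivity : (0 : ℝ) ≤ n)
    have := mul_le_mul_of_nonneg_left b2 (Real.sqrt_nonneg (n : ℝ))
    push_cast
    linarith
  gcongr

end Crest.Agent.QAC
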