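import Crest.Prelude.Def_QCircuit

/-! Definitions and piece statements for S0539 (parity is not in QAC⁰). -/

set_option autoImplicit false
open Finset Crest.Quantum.Circuit
open scoped Matrix.Norms.L2Operator

namespace Crest.Agent.QAC

abbrev M2 : Type := Matrix Bool Bool ℂ
abbrev Mat (N : ℕ) : Type := Matrix (Fin N → Bool) (Fin N → Bool) ℂ

variable {N : ℕ}

/-- tensor product of one-qubit operators -/
def tp (c : Fin N → M2) : Mat N := Matrix.of fun x y => ∏ i, c i (x i) (y i)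

/-- a family of one-qubit orthogonal projections -/
def PF (c : Fin N → M2) : Prop := ∀ i, IsStarProjection (c i)

/-- number of wires on which `c` is not the identity -/
noncomputable def sz (c : Fin N → M2) : ℕ := by
  classical exact (univ.filter fun i => c i ≠ 1).card

/-- the excited wires (relative to `π`) are exactly `T` -/
def E (π : Fin N → M2) (T : Finset (Fin N)) : Mat N := tp fun i => if i ∈ T then 1 - π i else π i

/-- more than `k` excited wires -/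
def Q (π : Fin N → M2) (k : ℕ) : Mat N := ∑ T : Finset (Fin N), if k < T.card then E π T else 0

/-- the basic quantity -/
noncomputable def X (U : Mat N) (π c : Fin N → M2) (k : ℕ) : ℝ :=
  ‖Q π k * (U * tp c * star U) * tp π‖

def XB (𝒰 : Set (Mat N)) (K : ℕ) : Prop :=
  ∀ U ∈ 𝒰, ∀ π c, PF π → PF c → ∀ k : ℕ, X U π c k ≤ 4 * Real.exp (-(k / K : ℝ))

def Mon (𝒰 : Set (Mat N)) (K : ℕ) : Prop :=
  ∀ U ∈ 𝒰, ∀ π c, PF π → PF c → ∀ k : ℕ, X U π c k ≤ 300 ^ sz c * (4 * Real.exp (-(k / K : ℝ)))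

/-- conjugation by `G` turns a product projection into a short combination of such -/
def Good0 (G : Mat N) : Prop := ∀ c, PF c → ∀ (φ : Seminorm ℂ (Mat N)) (b : ℝ),
  (∀ c', PF c' → φ (tp c') ≤ b) → φ (G * tp c * star G) ≤ 300 ^ sz c * b

def Good (G : Mat N) : Prop := G ∈ unitary (Mat N) ∧ Good0 G ∧ Good0 (star G)

def Circ (N j : ℕ) : Set (Mat N) := {U | ∃ l : List (Mat N), l.length ≤ j ∧ (∀ G ∈ l, Good G) ∧ U = l.prod}

/-- the scales reached by the bootstrap -/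
inductive Reach (N : ℕ) : ℕ → ℕ → Prop
  | zero : Reach N 0 1
  | step {j K : ℕ} (L M n : ℕ) : Reach N j K → 1 ≤ M → N ≤ M ^ n →
      300 * (4 * N + 7 : ℝ) ≤ Real.exp L → Reach N (j + 1) (M * (2 * (4 * K * (L + 2) * L) ^ 2) ^ n)

/-! ### Piece statements -/

/-- (POLY) low degree approximation of `T = ∅` on sets of size at most `m u²` -/
def PolyStmt : Prop := ∀ (N m u t : ℕ), 1 ≤ m → 1 ≤ u → ∃ a : Finset (Fin N) → ℝ,
  (∀ S, a S ≠ 0 → S.card ≤ m + u * t) ∧ ∑ S, |a S| ≤ (4 * N + 7 : ℝ) ^ (m + u * t) ∧ a ∅ = 1 ∧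
  ∀ T : Finset (Fin N), 1 ≤ T.card → T.card ≤ m * u ^ 2 →
    |∑ S with S ⊆ T, a S| ≤ (N + 1 : ℝ) ^ m / 3 ^ t

/-- (STEP) the bootstrap -/
def StepStmt : Prop := ∀ (N : ℕ) (𝒰 : Set (Mat N)), (∀ U ∈ 𝒰, U ∈ unitary (Mat N) ∧ star U ∈ 𝒰) →
  ∀ K L M n : ℕ, 1 ≤ K → 1 ≤ M → N ≤ M ^ n → 300 * (4 * N + 7 : ℝ) ≤ Real.exp L → Mon 𝒰 K →
    XB 𝒰 (M * (2 * (4 * K * (L + 2) * L) ^ 2) ^ n)

/-- (LAY) circuits are products of good layers -/
def LayStmt : Prop := ∀ (N : ℕ) (C : List (List (Gate N))), CircuitWF C →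
  ∃ V ∈ Circ N C.length, ∀ ψ, runCircuit C ψ = V.mulVec ψ

/-- (ASYM) the scale stays below `n` -/
def AsymStmt : Prop := ∀ (d c : ℕ) (ε : ℝ), 0 < ε → ∃ n₀ : ℕ, ∀ n ≥ n₀, ∀ N : ℕ, n ≤ N → N ≤ n ^ c →
  ∃ K, Reach N d K ∧ 1200 * Real.exp (-((n - 1 : ℕ) / K : ℝ)) < ε

/-- (PAR) a small `X` forbids computing parity -/
def ParStmt : Prop := ∀ (n N : ℕ), 1 ≤ n → n ≤ N → ∀ V ∈ unitary (Mat N), ∀ (o : Fin N) (ε : ℝ),
  (∀ π c, PF π → PF c → sz c ≤ 1 → X (star V) π c (n - 1) < ε) → ∃ x : Fin n → Bool,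
    outcomeProb o (parity x) (V.mulVec (basisState (inputString n x))) < 1 / 2 + ε

end Crest.Agent.QAC
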