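import Crest.Agent.QAC.TP

/-! Assembly of S0539 from the piece statements. -/

set_option autoImplicit false
open Finset Crest.Quantum.Circuit
open scoped Matrix.Norms.L2Operator

namespace Crest.Agent.QAC
variable {N : ℕ}

lemma proj_norm_le {P : Mat N} (h : IsStarProjection P) : ‖P‖ ≤ 1 := h.norm_le

lemma Good.star {G : Mat N} (h : Good G) : Good (star G) :=
  ⟨Unitary.star_mem h.1, h.2.2, by rw [star_star]; exact h.2.1⟩

lemma circ_mono {j j' : ℕ} (h : j ≤ j') : Circ N j ⊆ Circ N j' := by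
  rintro U ⟨l, h1, h2, h3⟩
  exact ⟨l, h1.trans h, h2, h3⟩

lemma circ_closed (j : ℕ) : ∀ U ∈ Circ N j, U ∈ unitary (Mat N) ∧ star U ∈ Circ N j := by
  rintro U ⟨l, h1, h2, rfl⟩
  refine ⟨Submonoid.list_prod_mem _ fun G hG => (h2 G hG).1, (l.map star).reverse, by simpa, ?_, ?_⟩
  · intro G hG
    obtain ⟨G', hG', rfl⟩ := List.mem_map.1 (List.mem_reverse.1 hG)
    exact (h2 G' hG').star
  · clear h1 h2
    induction l with
    | nil => simp
    | cons a l ih => simp [ih]

lemma mon_zero : Mon (Circ N 0) 1 := by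
  classical
  rintro U ⟨l, h1, -, rfl⟩ π c hπ hc k
  obtain rfl : l = [] := List.length_eq_zero_iff.1 (Nat.le_zero.1 h1)
  simp only [X, List.prod_nil, star_one, one_mul, mul_one, Nat.cast_one, div_one]
  by_cases hk : sz c ≤ k
  · have : Q π k * tp c * tp π = 0 := by
      rw [Q, Finset.sum_mul, Finset.sum_mul]
      refine Finset.sum_eq_zero fun T _ => ?_
      split_ifs with hT
      · obtain ⟨i, hi, hi'⟩ : ∃ i ∈ T, c i = 1 := by
          by_contra hcon
          push Not at hcon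
          have : T ⊆ univ.filter fun i => c i ≠ 1 := fun i hi => by simpa using hcon i hi
          have h2 := Finset.card_le_card this
          have h3 : sz c = (univ.filter fun i => c i ≠ 1).card := by
            unfold sz; congr
          omega
        rw [E, tp_mul, tp_mul]
        refine tp_eq_zero i ?_
        simp [hi, hi', sub_mul, (hπ i).isIdempotentElem.eq]
      · simp
    rw [this, norm_zero]
    positivity
  · have h1 : ‖Q π k * tp c * tp π‖ ≤ 1 := by
      have a1 := proj_norm_le (Q_proj hπ k)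
      have a2 := proj_norm_le hc.proj
      have a3 := proj_norm_le hπ.proj
      calc _ ≤ ‖Q π k‖ * ‖tp c‖ * ‖tp π‖ :=
            (norm_mul_le _ _).trans (mul_le_mul_of_nonneg_right (norm_mul_le _ _) (norm_nonneg _))
        _ ≤ 1 := mul_le_one₀ (mul_le_one₀ a1 (norm_nonneg _) a2) (norm_nonneg _) a3
    have h2 : Real.exp k ≤ 300 ^ sz c := by
      rw [← Real.exp_one_pow]
      calc Real.exp 1 ^ k ≤ 300 ^ k :=
            pow_le_pow_left₀ (Real.exp_pos 1).le (by linarith [Real.exp_one_lt_d9]) k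
        _ ≤ 300 ^ sz c := pow_le_pow_right₀ (by norm_num) (by omega)
    have h3 : Real.exp k * Real.exp (-k) = 1 := by rw [← Real.exp_add]; simp
    have h4 := Real.exp_pos (-(k : ℝ))
    nlinarith [mul_le_mul_of_nonneg_right h2 h4.le]

lemma mon_succ {j K : ℕ} (h : XB (Circ N j) K) : Mon (Circ N (j + 1)) K := by
  rintro U ⟨l, h1, h2, rfl⟩ π c hπ hc k
  rcases List.eq_nil_or_concat l with rfl | ⟨l', G, rfl⟩
  · have := h _ ⟨[], by simp, by simp, rfl⟩ π c hπ hc k
    refine this.trans (le_mul_of_one_le_left (by positivity) (one_le_pow₀ (by norm_num)))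
  · have hl' : l'.prod ∈ Circ N j :=
      ⟨l', by simpa using h1, fun G' hG' => h2 G' (by simp [hG']), rfl⟩
    have hG : Good G := h2 G (by simp)
    let f : Mat N →ₗ[ℂ] Mat N :=
      (LinearMap.mulLeft ℂ (Q π k * l'.prod)).comp (LinearMap.mulRight ℂ (star l'.prod * tp π))
    let φ : Seminorm ℂ (Mat N) := (normSeminorm ℂ (Mat N)).comp f
    have hφ : ∀ A, φ A = ‖Q π k * (l'.prod * A * star l'.prod) * tp π‖ := by
      intro A
      simp [φ, f, mul_assoc]
    have := hG.2.1 c hc φ (4 * Real.exp (-(k / K : ℝ))) fun c' hc' => by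
      rw [hφ]; exact h _ hl' π c' hπ hc' k
    rw [hφ] at this
    simpa [X, mul_assoc] using this

lemma reach_mon (hs : StepStmt) {j K : ℕ} (h : Reach N j K) : 1 ≤ K ∧ Mon (Circ N j) K := by
  induction h with
  | zero => exact ⟨le_rfl, mon_zero⟩
  | step L M n _ hM hN hL ih =>
    refine ⟨?_, mon_succ (hs N _ (circ_closed _) _ L M n ih.1 hM hN hL ih.2)⟩
    have hL0 : L ≠ 0 := by
      rintro rfl
      simp only [Nat.cast_zero, Real.exp_zero] at hL
      nlinarith [(Nat.cast_nonneg N : (0 : ℝ) ≤ N)]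
    have := ih.1
    exact Nat.one_le_iff_ne_zero.2 (by positivity)

theorem fin (hs : StepStmt) (hl : LayStmt) (ha : AsymStmt) (hp : ParStmt) (d c : ℕ) (ε : ℝ)
    (hε : 0 < ε) :
    ∃ n₀ : ℕ, ∀ n ≥ n₀, ∀ N : ℕ, n ≤ N → N ≤ n ^ c →
      ∀ C : List (List (Gate N)), CircuitWF C → C.length ≤ d →
        ∀ o : Fin N, ∃ x : Fin n → Bool,
          outcomeProb o (parity x) (runCircuit C (basisState (inputString n x))) < 1 / 2 + ε := by
  obtain ⟨n₀, h0⟩ := ha d c ε hε
  refine ⟨max n₀ 1, fun n hn N h1 h2 C hC hd o => ?_⟩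
  obtain ⟨K, hK, hKε⟩ := h0 n (le_of_max_le_left hn) N h1 h2
  obtain ⟨V, hV, hrun⟩ := hl N C hC
  have hV' := circ_closed d V (circ_mono hd hV)
  simp only [hrun]
  refine hp n N (le_of_max_le_right hn) h1 V hV'.1 o ε fun π c' hπ hc' hsz => ?_
  have h3 := (reach_mon hs hK).2 _ hV'.2 π c' hπ hc' (n - 1)
  have h4 : (300 : ℝ) ^ sz c' ≤ 300 ^ 1 := pow_le_pow_right₀ (by norm_num) hsz
  have h5 := Real.exp_pos (-(((n - 1 : ℕ) : ℝ) / K))
  nlinarith

end Crest.Agent.QAC
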