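import Crest.Agent.QAC.TP

/-! (LAY) circuits are products of good layers. -/

set_option autoImplicit false
open Finset Crest.Quantum.Circuit
open scoped Matrix.Norms.L2Operator

namespace Crest.Agent.QAC
namespace Lay
variable {N : ℕ}

/-! ### small `2 × 2` matrices -/

def e00 : M2 := Matrix.of fun x y => if x = false ∧ y = false then 1 else 0
def e11 : M2 := Matrix.of fun x y => if x = true ∧ y = true then 1 else 0
noncomputable def pp : M2 := Matrix.of fun _ _ => 1 / 2
noncomputable def pm : M2 := Matrix.of fun x y => if x = y then 1 / 2 else -(1 / 2)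
noncomputable def pI : M2 := Matrix.of fun x y =>
  if x = y then 1 / 2 else if x = false then -(Complex.I / 2) else Complex.I / 2

lemma e00_proj : IsStarProjection e00 := by
  constructor
  · ext x y
    cases x <;> cases y <;> simp [e00, Matrix.mul_apply]
  · ext x y
    cases x <;> cases y <;> simp [e00, Matrix.star_apply]

lemma e11_proj : IsStarProjection e11 := by
  constructor
  · ext x y
    cases x <;> cases y <;> simp [e11, Matrix.mul_apply]
  · ext x y
    cases x <;> cases y <;> simp [e11, Matrix.star_apply]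

lemma pp_proj : IsStarProjection pp := by
  constructor
  · ext x y
    simp [pp, Matrix.mul_apply]
  · ext x y
    simp [pp, Matrix.star_apply]

lemma pm_proj : IsStarProjection pm := by
  constructor
  · ext x y
    cases x <;> cases y <;> simp [pm, Matrix.mul_apply] <;> norm_num
  · ext x y
    cases x <;> cases y <;> simp [pm, Matrix.star_apply]

lemma pI_proj : IsStarProjection pI := by
  constructor
  · ext x y
    cases x <;> cases y <;> simp [pI, Matrix.mul_apply] <;>
      (apply Complex.ext <;> simp <;> norm_num)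
  · ext x y
    cases x <;> cases y <;> simp [pI, Matrix.star_apply] <;> ring

/-- entries bounded by `r` -/
def EB (a : M2) (r : ℝ) : Prop := ∀ x y, ‖a x y‖ ≤ r

lemma EB.mul {a b : M2} {r s : ℝ} (ha : EB a r) (hb : EB b s) : EB (a * b) (2 * r * s) := by
  intro x y
  have hr : 0 ≤ r := (norm_nonneg _).trans (ha x y)
  rw [Matrix.mul_apply, Fintype.sum_bool]
  refine (norm_add_le _ _).trans ?_
  rw [norm_mul, norm_mul]
  have h1 := mul_le_mul (ha x true) (hb true y) (norm_nonneg _) hr
  have h2 := mul_le_mul (ha x false) (hb false y) (norm_nonneg _) hr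
  linarith

lemma EB.mono {a : M2} {r s : ℝ} (ha : EB a r) (h : r ≤ s) : EB a s := fun x y => (ha x y).trans h

lemma EB_proj {a : M2} (h : IsStarProjection a) : EB a 1 := by
  have key : ∀ y, a y y = ((‖a true y‖ ^ 2 + ‖a false y‖ ^ 2 : ℝ) : ℂ) := fun y => by
    have h1 : star a * a = a := by rw [h.isSelfAdjoint.star_eq, h.isIdempotentElem.eq]
    have h2 := congrFun (congrFun h1 y) y
    rw [Matrix.mul_apply, Fintype.sum_bool, Matrix.star_apply, Matrix.star_apply] at h2
    rw [← h2]
    push_cast
    rw [← Complex.conj_mul', ← Complex.conj_mul']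
    rfl
  intro x y
  have h3 : ‖a y y‖ = ‖a true y‖ ^ 2 + ‖a false y‖ ^ 2 := by
    conv_lhs => rw [key y]
    rw [Complex.norm_real, Real.norm_of_nonneg (by positivity)]
  have h4 := norm_nonneg (a true y)
  have h5 := norm_nonneg (a false y)
  have aux : ∀ u v : ℝ, 0 ≤ u → 0 ≤ v → u = u ^ 2 + v ^ 2 → u ≤ 1 ∧ v ≤ 1 := fun u v hu hv e => by
    constructor
    · nlinarith [sq_nonneg v]
    · nlinarith [sq_nonneg (u - 1)]
  cases x <;> cases y
  · exact (aux _ _ h5 h4 (by linarith)).1
  · exact (aux _ _ h4 h5 (by linarith)).2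
  · exact (aux _ _ h5 h4 (by linarith)).2
  · exact (aux _ _ h4 h5 (by linarith)).1

lemma decomp (a : M2) : a = a false false • e00 + a true true • e11 + (a false true + a true false) • pp
    + (Complex.I * (a false true - a true false)) • pI
    + (-(((1 + Complex.I) * a false true + (1 - Complex.I) * a true false) / 2)) • (1 : M2) := by
  ext x y
  cases x <;> cases y <;> simp [e00, e11, pp, pI] <;> ring_nf <;> simp <;> ring

/-- expanding one wire -/
lemma expand1 (d : Fin N → M2) (j : Fin N) (hj : EB (d j) 4) (φ : Seminorm ℂ (Mat N)) (b : ℝ)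
    (h : ∀ p : M2, IsStarProjection p → φ (tp (Function.update d j p)) ≤ b) : φ (tp d) ≤ 32 * b := by
  have hb : 0 ≤ b := (apply_nonneg _ _).trans (h 1 (IsStarProjection.one _))
  have e : tp d = tp (Function.update d j (d j)) := by rw [Function.update_eq_self]
  rw [e, decomp (d j)]
  simp only [tp_update_add, tp_update_smul]
  have h00 := hj false false
  have h01 := hj false true
  have h10 := hj true false
  have h11 := hj true true
  have n3 : ‖d j false true + d j true false‖ ≤ 8 := (norm_add_le _ _).trans (by linarith)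
  have n4 : ‖Complex.I * (d j false true - d j true false)‖ ≤ 8 := by
    rw [norm_mul, Complex.norm_I, one_mul]
    exact (norm_sub_le _ _).trans (by linarith)
  have n5 : ‖-(((1 + Complex.I) * d j false true + (1 - Complex.I) * d j true false) / 2)‖ ≤ 8 := by
    rw [norm_neg, norm_div]
    have a1 : ‖(1 + Complex.I : ℂ)‖ ≤ 2 := (norm_add_le _ _).trans (by simp; norm_num)
    have a2 : ‖(1 - Complex.I : ℂ)‖ ≤ 2 := (norm_sub_le _ _).trans (by simp; norm_num)
    have a3 := norm_add_le ((1 + Complex.I) * d j false true) ((1 - Complex.I) * d j true false)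
    rw [norm_mul, norm_mul] at a3
    have a4 := mul_le_mul a1 h01 (norm_nonneg _) (by norm_num)
    have a5 := mul_le_mul a2 h10 (norm_nonneg _) (by norm_num)
    rw [Complex.norm_ofNat, div_le_iff₀ (by norm_num)]
    linarith
  have s : ∀ (z : ℂ) (r : ℝ) (p : M2), ‖z‖ ≤ r → IsStarProjection p →
      φ (z • tp (Function.update d j p)) ≤ r * b := fun z r p hz hp => by
    rw [map_smul_eq_mul]
    exact mul_le_mul hz (h p hp) (apply_nonneg _ _) ((norm_nonneg _).trans hz)
  have t1 := s _ _ _ h00 e00_proj
  have t2 := s _ _ _ h11 e11_proj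
  have t3 := s _ _ _ n3 pp_proj
  have t4 := s _ _ _ n4 pI_proj
  have t5 := s _ _ _ n5 (IsStarProjection.one _)
  refine (map_add_le_add _ _ _).trans ?_
  refine (add_le_add ((map_add_le_add _ _ _).trans (add_le_add ((map_add_le_add _ _ _).trans
    (add_le_add ((map_add_le_add _ _ _).trans (add_le_add t1 t2)) t3)) t4)) t5).trans ?_
  linarith

/-- expanding all bad wires -/
lemma expand (φ : Seminorm ℂ (Mat N)) (b : ℝ) (B : Finset (Fin N)) : ∀ (d : Fin N → M2),
    (∀ i, i ∉ B → IsStarProjection (d i)) → (∀ i ∈ B, EB (d i) 4) →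
    (∀ c', PF c' → (∀ i, i ∉ B → c' i = d i) → φ (tp c') ≤ b) → φ (tp d) ≤ 32 ^ B.card * b := by
  induction B using Finset.induction_on with
  | empty =>
    intro d h1 _ h3
    simpa using h3 d (fun i => h1 i (by simp)) (fun _ _ => rfl)
  | insert j B hj ih =>
    intro d h1 h2 h3
    rw [Finset.card_insert_of_notMem hj, pow_succ', mul_assoc]
    refine expand1 d j (h2 j (mem_insert_self _ _)) φ _ fun p hp => ?_
    refine ih _ (fun i hi => ?_) (fun i hi => ?_) (fun c' hc' hc => h3 c' hc' fun i hi => ?_)
    · by_cases hij : i = j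
      · subst hij; rwa [Function.update_self]
      · rw [Function.update_of_ne hij]
        exact h1 i (by simp [hij, hi])
    · have hij : i ≠ j := fun e => hj (e ▸ hi)
      rw [Function.update_of_ne hij]
      exact h2 i (mem_insert_of_mem hi)
    · rw [mem_insert, not_or] at hi
      rw [hc i hi.2, Function.update_of_ne hi.1]

/-! ### the local property -/

open Classical in
/-- the wires of `s` on which `c` is not the identity -/
noncomputable def bad (s : Finset (Fin N)) (c : Fin N → M2) : Finset (Fin N) :=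
  s.filter fun i => c i ≠ 1

lemma mem_bad {s : Finset (Fin N)} {c : Fin N → M2} {i : Fin N} :
    i ∈ bad s c ↔ i ∈ s ∧ c i ≠ 1 := by
  classical
  simp [bad]

def GP0 (g : Mat N) (s : Finset (Fin N)) : Prop := ∀ c, PF c → ∀ (φ : Seminorm ℂ (Mat N)) (b : ℝ),
  (∀ c', PF c' → (∀ i, i ∉ s → c' i = c i) → φ (tp c') ≤ b) →
    φ (g * tp c * star g) ≤ 300 ^ (bad s c).card * b

def GP (g : Mat N) (s : Finset (Fin N)) : Prop :=
  g ∈ unitary (Mat N) ∧ GP0 g s ∧ GP0 (star g) s

lemma GP0.good {g : Mat N} {s : Finset (Fin N)} (h : GP0 g s) : Good0 g := by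
  intro c hc φ b hb
  have hb0 : 0 ≤ b := (apply_nonneg _ _).trans (hb c hc)
  refine (h c hc φ b fun c' hc' _ => hb c' hc').trans ?_
  refine mul_le_mul_of_nonneg_right (pow_le_pow_right₀ (by norm_num) ?_) hb0
  unfold sz
  refine Finset.card_le_card fun i hi => ?_
  simp only [mem_filter, mem_univ, true_and]
  exact (mem_bad.1 hi).2

lemma GP.good {g : Mat N} {s : Finset (Fin N)} (h : GP g s) : Good g :=
  ⟨h.1, h.2.1.good, h.2.2.good⟩

lemma GP0.one : GP0 (1 : Mat N) ∅ := by
  intro c hc φ b hb
  have : bad ∅ c = ∅ := by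
    ext i
    simp [mem_bad]
  simpa [this] using hb c hc fun _ _ => rfl

lemma GP.one : GP (1 : Mat N) ∅ := ⟨one_mem _, GP0.one, by rw [star_one]; exact GP0.one⟩

lemma exists_conj (φ : Seminorm ℂ (Mat N)) (g : Mat N) :
    ∃ ψ : Seminorm ℂ (Mat N), ∀ A, ψ A = φ (g * A * star g) :=
  ⟨φ.comp ((LinearMap.mulRight ℂ (star g)).comp (LinearMap.mulLeft ℂ g)), fun A => by
    rw [Seminorm.comp_apply, LinearMap.comp_apply, LinearMap.mulLeft_apply,
      LinearMap.mulRight_apply]⟩

lemma GP0.mul {g g' : Mat N} {s s' : Finset (Fin N)} (h : GP0 g s) (h' : GP0 g' s')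
    (hd : Disjoint s s') : GP0 (g * g') (s ∪ s') := by
  intro c hc φ b hb
  obtain ⟨ψ, hψ⟩ := exists_conj φ g
  have e : g * g' * tp c * star (g * g') = g * (g' * tp c * star g') * star g := by
    rw [star_mul]
    simp only [mul_assoc]
  have hcard : (bad (s ∪ s') c).card = (bad s' c).card + (bad s c).card := by
    rw [← Finset.card_union_of_disjoint]
    · congr 1
      ext i
      simp only [mem_bad, mem_union]
      tauto
    · rw [Finset.disjoint_left]
      intro i h1 h2
      exact Finset.disjoint_left.1 hd (mem_bad.1 h2).1 (mem_bad.1 h1).1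
  rw [e, ← hψ, hcard, pow_add, mul_assoc _ _ b]
  refine h' c hc ψ _ fun c' hc' hcc => ?_
  have hbad : bad s c = bad s c' := by
    ext i
    simp only [mem_bad]
    refine and_congr_right fun hi => ?_
    rw [hcc i (Finset.disjoint_left.1 hd hi)]
  rw [hψ, hbad]
  refine h c' hc' φ b fun c'' hc'' hcc' => hb c'' hc'' fun i hi => ?_
  rw [mem_union, not_or] at hi
  rw [hcc' i hi.1, hcc i hi.2]

lemma GP.mul {g g' : Mat N} {s s' : Finset (Fin N)} (h : GP g s) (h' : GP g' s')
    (hd : Disjoint s s') : GP (g * g') (s ∪ s') := by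
  refine ⟨mul_mem h.1 h'.1, h.2.1.mul h'.2.1 hd, ?_⟩
  rw [star_mul, union_comm]
  exact h'.2.2.mul h.2.2 hd.symm

/-! ### one-qubit gates -/

def m1 (i : Fin N) (U : M2) : Mat N := tp (Function.update (fun _ => 1) i U)

lemma star_m1 (i : Fin N) (U : M2) : star (m1 i U) = m1 i (star U) := by
  rw [m1, m1, star_tp]
  congr 1
  funext j
  by_cases h : j = i
  · subst h; simp
  · simp [Function.update_of_ne h]

lemma m1_mul (i : Fin N) (U V : M2) : m1 i U * m1 i V = m1 i (U * V) := by
  rw [m1, m1, m1, tp_mul]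
  congr 1
  funext j
  by_cases h : j = i
  · subst h; simp
  · simp [Function.update_of_ne h]

lemma m1_one (i : Fin N) : m1 i (1 : M2) = 1 := by
  rw [m1, ← tp_one]
  congr 1
  exact Function.update_eq_self i _

lemma m1_mulVec (i : Fin N) (U : M2) (ψ : QState N) (σ : Fin N → Bool) :
    (m1 i U).mulVec ψ σ = ∑ b : Bool, U (σ i) b * ψ (Function.update σ i b) := by
  have key : ∀ τ : Fin N → Bool, m1 i U σ τ =
      ∑ b : Bool, if τ = Function.update σ i b then U (σ i) b else 0 := fun τ => by
    rw [m1, tp_update]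
    by_cases h : τ = Function.update σ i (τ i)
    · rw [Finset.sum_eq_single (τ i), if_pos h, Finset.prod_eq_one, mul_one]
      · intro j hj
        rw [h, Function.update_of_ne (Finset.ne_of_mem_erase hj), Matrix.one_apply_eq]
      · intro b _ hb
        rw [if_neg]
        intro e
        exact hb (by rw [e, Function.update_self])
      · simp
    · rw [Finset.sum_eq_zero]
      · obtain ⟨j, hj⟩ := Function.ne_iff.1 h
        have hji : j ≠ i := by
          rintro rfl
          simp at hj
        rw [Function.update_of_ne hji] at hj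
        refine mul_eq_zero_of_right _ (Finset.prod_eq_zero (i := j) (by simp [hji]) ?_)
        exact Matrix.one_apply_ne hj.symm
      · intro b _
        rw [if_neg]
        intro e
        apply h
        rw [e, Function.update_self]
  simp only [Matrix.mulVec, dotProduct, key, Finset.sum_mul]
  rw [Finset.sum_comm]
  refine Finset.sum_congr rfl fun b _ => ?_
  simp

lemma GP0_m1 (i : Fin N) {U : M2} (hU : U ∈ unitary M2) : GP0 (m1 i U) {i} := by
  intro c hc φ b hb
  have hb0 : 0 ≤ b := (apply_nonneg _ _).trans (hb c hc fun _ _ => rfl)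
  have e : m1 i U * tp c * star (m1 i U) = tp (Function.update c i (U * c i * star U)) := by
    rw [star_m1, m1, m1, tp_mul, tp_mul]
    congr 1
    funext j
    by_cases h : j = i
    · subst h; simp
    · simp [Function.update_of_ne h]
  rw [e]
  refine (hb _ (fun j => ?_) fun j hj => ?_).trans
    (le_mul_of_one_le_left hb0 (one_le_pow₀ (by norm_num)))
  · by_cases h : j = i
    · subst h
      rw [Function.update_self]
      constructor
      · have h1 : star U * U = 1 := (Unitary.mem_iff.1 hU).1
        have h2 := (hc j).isIdempotentElem.eq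
        rw [IsIdempotentElem]
        calc U * c j * star U * (U * c j * star U) = U * c j * (star U * U) * c j * star U := by
              simp only [mul_assoc]
          _ = U * (c j * c j) * star U := by rw [h1]; simp only [mul_assoc, one_mul]
          _ = _ := by rw [h2]
      · rw [IsSelfAdjoint, star_mul, star_mul, star_star, (hc j).isSelfAdjoint.star_eq, mul_assoc]
    · rw [Function.update_of_ne h]
      exact hc j
  · rw [Function.update_of_ne (by simpa using hj)]

lemma GP_m1 (i : Fin N) {U : M2} (hU : U ∈ unitary M2) : GP (m1 i U) {i} := by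
  refine ⟨?_, GP0_m1 i hU, ?_⟩
  · rw [Unitary.mem_iff, star_m1, m1_mul, m1_mul, (Unitary.mem_iff.1 hU).1,
      (Unitary.mem_iff.1 hU).2, m1_one]
    exact ⟨rfl, rfl⟩
  · rw [star_m1]
    exact GP0_m1 i (Unitary.star_mem hU)

/-! ### reflections -/

lemma GP0_refl (χ : Fin N → M2) (hχ : PF χ) (s : Finset (Fin N)) (hs : ∀ i, i ∉ s → χ i = 1) :
    GP0 (1 - (2 : ℂ) • tp χ) s := by
  intro c hc φ b hb
  have hb0 : 0 ≤ b := (apply_nonneg _ _).trans (hb c hc fun _ _ => rfl)
  have e : (1 - (2 : ℂ) • tp χ) * tp c * star (1 - (2 : ℂ) • tp χ) =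
      tp c + (-2 : ℂ) • tp (fun i => χ i * c i) + (-2 : ℂ) • tp (fun i => c i * χ i)
        + (4 : ℂ) • tp (fun i => χ i * c i * χ i) := by
    rw [star_sub, star_one, star_smul, hχ.proj.isSelfAdjoint.star_eq, ← tp_mul, ← tp_mul, ← tp_mul,
      ← tp_mul]
    simp only [star_ofNat, sub_mul, mul_sub, one_mul, mul_one, smul_mul_assoc, mul_smul_comm]
    module
  rw [e]
  by_cases h0 : bad s c = ∅
  · have h1 : ∀ i, χ i = 1 ∨ c i = 1 := fun i => by
      by_cases hi : i ∈ s
      · right
        by_contra hc1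
        have : i ∈ bad s c := mem_bad.2 ⟨hi, hc1⟩
        simp [h0] at this
      · exact Or.inl (hs i hi)
    have e1 : (fun i => c i * χ i) = fun i => χ i * c i := by
      funext i
      rcases h1 i with h | h <;> simp [h]
    have e2 : (fun i => χ i * c i * χ i) = fun i => χ i * c i := by
      funext i
      rcases h1 i with h | h
      · simp [h]
      · simp [h, (hχ i).isIdempotentElem.eq]
    rw [e1, e2, h0]
    have : tp c + (-2 : ℂ) • tp (fun i => χ i * c i) + (-2 : ℂ) • tp (fun i => χ i * c i)
        + (4 : ℂ) • tp (fun i => χ i * c i) = tp c := by module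
    rw [this]
    simpa using hb c hc fun _ _ => rfl
  · have key : ∀ d : Fin N → M2, (∀ i, χ i = 1 → d i = c i) → (∀ i, c i = 1 → d i = χ i) →
        (∀ i, EB (d i) 4) → φ (tp d) ≤ 32 ^ (bad s c).card * b := fun d h1 h2 h3 => by
      refine expand φ b _ d (fun i hi => ?_) (fun i _ => h3 i) fun c' hc' hcc => ?_
      · by_cases his : i ∈ s
        · have : c i = 1 := by
            by_contra hc1
            exact hi (mem_bad.2 ⟨his, hc1⟩)
          rw [h2 i this]
          exact hχ i
        · rw [h1 i (hs i his)]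
          exact hc i
      · refine hb c' hc' fun i hi => ?_
        rw [hcc i fun h => hi (mem_bad.1 h).1, h1 i (hs i hi)]
    have k1 := key (fun i => χ i * c i) (fun i h => by simp [h]) (fun i h => by simp [h])
      fun i => ((EB_proj (hχ i)).mul (EB_proj (hc i))).mono (by norm_num)
    have k2 := key (fun i => c i * χ i) (fun i h => by simp [h]) (fun i h => by simp [h])
      fun i => ((EB_proj (hc i)).mul (EB_proj (hχ i))).mono (by norm_num)
    have k3 := key (fun i => χ i * c i * χ i) (fun i h => by simp [h])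
      (fun i h => by simp [h, (hχ i).isIdempotentElem.eq])
      fun i => (((EB_proj (hχ i)).mul (EB_proj (hc i))).mul (EB_proj (hχ i))).mono (by norm_num)
    have k0 : φ (tp c) ≤ 32 ^ (bad s c).card * b :=
      (hb c hc fun _ _ => rfl).trans (le_mul_of_one_le_left hb0 (one_le_pow₀ (by norm_num)))
    have t1 := map_add_le_add φ (tp c + (-2 : ℂ) • tp (fun i => χ i * c i)
      + (-2 : ℂ) • tp (fun i => c i * χ i)) ((4 : ℂ) • tp (fun i => χ i * c i * χ i))
    have t2 := map_add_le_add φ (tp c + (-2 : ℂ) • tp (fun i => χ i * c i))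
      ((-2 : ℂ) • tp (fun i => c i * χ i))
    have t3 := map_add_le_add φ (tp c) ((-2 : ℂ) • tp (fun i => χ i * c i))
    rw [map_smul_eq_mul] at t1 t2 t3
    simp only [norm_neg, Complex.norm_ofNat] at t1 t2 t3
    obtain ⟨r, hr⟩ : ∃ r, (bad s c).card = r + 1 :=
      Nat.exists_eq_succ_of_ne_zero (by rwa [Ne, Finset.card_eq_zero])
    have h9 : 9 * (32 : ℝ) ^ (bad s c).card ≤ 300 ^ (bad s c).card := by
      rw [hr, pow_succ, pow_succ]
      have := pow_le_pow_left₀ (by norm_num : (0 : ℝ) ≤ 32) (by norm_num : (32 : ℝ) ≤ 300) r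
      have h32 : (0 : ℝ) ≤ 32 ^ r := by positivity
      linarith
    have h10 := mul_le_mul_of_nonneg_right h9 hb0
    linarith

lemma GP_refl (χ : Fin N → M2) (hχ : PF χ) (s : Finset (Fin N)) (hs : ∀ i, i ∉ s → χ i = 1) :
    GP (1 - (2 : ℂ) • tp χ) s := by
  have h1 : star (1 - (2 : ℂ) • tp χ) = 1 - (2 : ℂ) • tp χ := by
    rw [star_sub, star_one, star_smul, hχ.proj.isSelfAdjoint.star_eq, star_ofNat]
  have h2 : (1 - (2 : ℂ) • tp χ) * (1 - (2 : ℂ) • tp χ) = 1 := by
    simp only [sub_mul, mul_sub, one_mul, mul_one, smul_mul_assoc, mul_smul_comm,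
      hχ.proj.isIdempotentElem.eq]
    module
  refine ⟨?_, GP0_refl χ hχ s hs, ?_⟩
  · rw [Unitary.mem_iff, h1]
    exact ⟨h2, h2⟩
  · rw [h1]
    exact GP0_refl χ hχ s hs

/-! ### Toffoli gates -/

def dS (S : Finset (Fin N)) : Fin N → M2 := fun i => if i ∈ S then e11 else 1

noncomputable def chi (S : Finset (Fin N)) (t : Fin N) : Fin N → M2 := Function.update (dS S) t pm

lemma chi_PF (S : Finset (Fin N)) (t : Fin N) : PF (chi S t) := fun i => by
  by_cases h : i = t
  · subst h
    rw [chi, Function.update_self]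
    exact pm_proj
  · rw [chi, Function.update_of_ne h, dS]
    split_ifs
    · exact e11_proj
    · exact IsStarProjection.one _

lemma tp_dS (S : Finset (Fin N)) :
    tp (dS S) = Matrix.diagonal fun σ => if ∀ i ∈ S, σ i = true then 1 else 0 := by
  ext σ τ
  rw [tp_apply, Matrix.diagonal_apply]
  by_cases h : σ = τ
  · subst h
    rw [if_pos rfl]
    split_ifs with h1
    · refine Finset.prod_eq_one fun i _ => ?_
      rw [dS]
      split_ifs with hi
      · simp [e11, h1 i hi]
      · simp
    · push Not at h1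
      obtain ⟨i, hi, h2⟩ := h1
      refine Finset.prod_eq_zero (mem_univ i) ?_
      simp [dS, hi, e11, h2]
  · rw [if_neg h]
    obtain ⟨i, hi⟩ := Function.ne_iff.1 h
    refine Finset.prod_eq_zero (mem_univ i) ?_
    rw [dS]
    split_ifs
    · simp only [e11, Matrix.of_apply]
      rw [if_neg]
      rintro ⟨h1, h2⟩
      exact hi (h1.trans h2.symm)
    · exact Matrix.one_apply_ne hi

lemma tp_chi {S : Finset (Fin N)} {t : Fin N} (ht : t ∉ S) : tp (chi S t) = tp (dS S) * m1 t pm := by
  rw [m1, tp_mul]
  congr 1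
  funext j
  by_cases h : j = t
  · subst h; simp [chi, dS, ht]
  · simp [chi, Function.update_of_ne h]

/-- the matrix of a gate -/
noncomputable def mat : Gate N → Mat N
  | .oneQubit i U => m1 i U
  | .toffoli S t => 1 - (2 : ℂ) • tp (chi S t)

lemma mat_apply (g : Gate N) (hg : g.WellFormed) (ψ : QState N) :
    g.apply ψ = (mat g).mulVec ψ := by
  funext σ
  cases g with
  | oneQubit i U => exact (m1_mulVec i U ψ σ).symm
  | toffoli S t =>
    have ht : t ∉ S := hg
    simp only [Gate.apply, mat]
    rw [Matrix.sub_mulVec, Matrix.one_mulVec, Matrix.smul_mulVec, tp_chi ht,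
      ← Matrix.mulVec_mulVec, tp_dS, Pi.sub_apply, Pi.smul_apply, Matrix.mulVec_diagonal,
      m1_mulVec, Fintype.sum_bool]
    by_cases h : ∀ i ∈ S, σ i = true
    · rw [if_pos h, decide_eq_true h]
      have e : ψ σ = ψ (Function.update σ t (σ t)) := by rw [Function.update_eq_self]
      rw [e]
      cases σ t <;> simp [pm] <;> ring
    · rw [if_neg h, decide_eq_false h]
      simp

lemma mat_GP (g : Gate N) (hg : g.WellFormed) : GP (mat g) g.support := by
  cases g with
  | oneQubit i U => exact GP_m1 i hg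
  | toffoli S t =>
    refine GP_refl _ (chi_PF S t) _ fun i hi => ?_
    simp only [Gate.support, mem_insert, not_or] at hi
    rw [chi, Function.update_of_ne hi.1, dS, if_neg hi.2]

/-! ### layers and circuits -/

lemma layer (L : List (Gate N)) (hL : LayerWF L) : ∃ (G : Mat N) (s : Finset (Fin N)), GP G s ∧
    (∀ i ∈ s, ∃ g ∈ L, i ∈ g.support) ∧ ∀ ψ, applyLayer L ψ = G.mulVec ψ := by
  induction L with
  | nil => exact ⟨1, ∅, GP.one, by simp, fun ψ => by simp [applyLayer]⟩
  | cons g L ih =>
    obtain ⟨h1, h2⟩ := hL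
    rw [List.pairwise_cons] at h2
    obtain ⟨G, s, hG, hs, hψ⟩ := ih ⟨fun g' hg' => h1 g' (List.mem_cons_of_mem _ hg'), h2.2⟩
    have hg := h1 g List.mem_cons_self
    refine ⟨G * mat g, s ∪ g.support, hG.mul (mat_GP g hg) ?_, fun i hi => ?_, fun ψ => ?_⟩
    · rw [Finset.disjoint_left]
      intro i hi hi'
      obtain ⟨g', hg', hi''⟩ := hs i hi
      exact Finset.disjoint_left.1 (h2.1 g' hg') hi' hi''
    · rcases mem_union.1 hi with h | h
      · obtain ⟨g', hg', hi''⟩ := hs i h
        exact ⟨g', List.mem_cons_of_mem _ hg', hi''⟩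
      · exact ⟨g, List.mem_cons_self, h⟩
    · have : applyLayer (g :: L) ψ = applyLayer L (g.apply ψ) := rfl
      rw [this, hψ, mat_apply g hg, Matrix.mulVec_mulVec]

end Lay

theorem lay : LayStmt := by
  intro N C hC
  induction C with
  | nil => exact ⟨1, ⟨[], le_rfl, by simp, rfl⟩, fun ψ => by simp [runCircuit]⟩
  | cons L C ih =>
    obtain ⟨V, ⟨l, hl, hG, rfl⟩, hV⟩ := ih fun L' hL' => hC L' (List.mem_cons_of_mem _ hL')
    obtain ⟨G, s, hGP, -, hψ⟩ := Lay.layer L (hC L List.mem_cons_self)
    refine ⟨l.prod * G, ⟨l ++ [G], by simpa using hl, fun G' hG' => ?_, by simp⟩, fun ψ => ?_⟩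
    · rcases List.mem_append.1 hG' with h | h
      · exact hG G' h
      · rw [List.mem_singleton.1 h]
        exact hGP.good
    · have : runCircuit (L :: C) ψ = runCircuit C (applyLayer L ψ) := rfl
      rw [this, hV, hψ, Matrix.mulVec_mulVec]

end Crest.Agent.QAC
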