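import Crest.Agent.QAC.Defs

/-! (PAR) a small `X` forbids computing parity. -/

set_option autoImplicit false
open Finset Crest.Quantum.Circuit Matrix
open scoped Matrix.Norms.L2Operator

namespace Crest.Agent.QAC
namespace ParP

variable {N : ℕ}

/-- product vector -/
def pv (v : Fin N → Bool → ℂ) : (Fin N → Bool) → ℂ := fun σ => ∏ i, v i (σ i)

theorem sum_prod {R : Type} [CommSemiring R] (f : Fin N → Bool → R) :
    ∑ σ : Fin N → Bool, ∏ i, f i (σ i) = ∏ i, ∑ b, f i b := by
  rw [Finset.prod_univ_sum, Fintype.piFinset_univ]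

theorem tp_mulVec (c : Fin N → M2) (v : Fin N → Bool → ℂ) :
    tp c *ᵥ pv v = pv fun i => c i *ᵥ v i := by
  funext σ
  simp only [mulVec, dotProduct, tp, pv, of_apply]
  rw [← sum_prod fun i b => c i (σ i) b * v i b]
  refine Finset.sum_congr rfl fun τ _ => ?_
  rw [Finset.prod_mul_distrib]

theorem vecMul_tp (c : Fin N → M2) (v : Fin N → Bool → ℂ) :
    pv v ᵥ* tp c = pv fun i => v i ᵥ* c i := by
  funext σ
  simp only [vecMul, dotProduct, tp, pv, of_apply]
  rw [← sum_prod fun i b => v i b * c i b (σ i)]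
  refine Finset.sum_congr rfl fun τ _ => ?_
  rw [Finset.prod_mul_distrib]

theorem tp_diagonal (d : Fin N → Bool → ℂ) :
    tp (fun i => diagonal (d i)) = diagonal (pv d) := by
  ext σ τ
  simp only [tp, of_apply]
  by_cases h : σ = τ
  · subst h; simp [pv]
  · rw [diagonal_apply_ne _ h]
    obtain ⟨i, hi⟩ := Function.ne_iff.1 h
    exact Finset.prod_eq_zero (Finset.mem_univ i) (diagonal_apply_ne _ hi)

theorem norm_pv (v : Fin N → Bool → ℂ) (hv : ∀ i, ∑ b, ‖v i b‖ ^ 2 = 1) :
    ‖(WithLp.toLp 2 (pv v) : EuclideanSpace ℂ (Fin N → Bool))‖ = 1 := by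
  have h : ‖(WithLp.toLp 2 (pv v) : EuclideanSpace ℂ (Fin N → Bool))‖ ^ 2 = 1 := by
    rw [EuclideanSpace.norm_sq_eq]
    simp only [pv, norm_prod, ← Finset.prod_pow]
    rw [sum_prod fun i b => ‖v i b‖ ^ 2]
    simp only [hv, Finset.prod_const_one]
  have h0 := norm_nonneg (WithLp.toLp 2 (pv v) : EuclideanSpace ℂ (Fin N → Bool))
  nlinarith

theorem bil_le (M : Mat N) (u v : Fin N → Bool → ℂ) (hu : ∀ i, ∑ b, ‖u i b‖ ^ 2 = 1)
    (hv : ∀ i, ∑ b, ‖v i b‖ ^ 2 = 1) : ‖pv u ⬝ᵥ (M *ᵥ pv v)‖ ≤ ‖M‖ := by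
  have h1 : pv u ⬝ᵥ (M *ᵥ pv v) = inner ℂ
      (WithLp.toLp 2 (pv fun i => star (u i)) : EuclideanSpace ℂ (Fin N → Bool))
      (WithLp.toLp 2 (M *ᵥ pv v)) := by
    rw [EuclideanSpace.inner_toLp_toLp, dotProduct_comm]
    congr 1
    funext σ
    simp [pv]
  rw [h1]
  refine (norm_inner_le_norm _ _).trans ?_
  rw [norm_pv _ (by simpa using hu), one_mul]
  have h2 := Matrix.l2_opNorm_mulVec M (WithLp.toLp 2 (pv v) : EuclideanSpace ℂ (Fin N → Bool))
  rw [norm_pv _ hv, mul_one] at h2
  exact h2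

/-- sign -/
def sg (b s : Bool) : ℂ := if b = true ∧ s = true then -1 else 1

/-- right vectors -/
noncomputable def vv (n : ℕ) (i : Fin N) (b : Bool) : Bool → ℂ :=
  fun s => if (i : ℕ) < n then (1 + Complex.I) / 2 * sg b s else if s = true then 0 else 1

/-- left vectors -/
noncomputable def uu (n : ℕ) (i : Fin N) (b : Bool) : Bool → ℂ :=
  fun s => if (i : ℕ) < n then (1 - Complex.I) / 2 * sg (!b) s else if s = true then 0 else 1

/-- projections -/
noncomputable def pp (n : ℕ) (i : Fin N) (b : Bool) : M2 :=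
  if (i : ℕ) < n then Matrix.of fun s t => 1 / 2 * (sg b s * sg b t) else 1

theorem norm_h : ‖(1 + Complex.I) / 2‖ ^ 2 = 1 / 2 := by
  rw [← Complex.normSq_eq_norm_sq, Complex.normSq_apply]; simp; norm_num

theorem norm_h' : ‖(1 - Complex.I) / 2‖ ^ 2 = 1 / 2 := by
  rw [← Complex.normSq_eq_norm_sq, Complex.normSq_apply]; simp; norm_num

theorem norm_sg (b s : Bool) : ‖sg b s‖ = 1 := by unfold sg; split_ifs <;> simp

theorem vv_norm (n : ℕ) (i : Fin N) (b : Bool) : ∑ s, ‖vv n i b s‖ ^ 2 = 1 := by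
  by_cases h : (i : ℕ) < n
  · simp only [vv, if_pos h, norm_mul, norm_sg, mul_one, norm_h]; simp
  · simp [vv, h]

theorem uu_norm (n : ℕ) (i : Fin N) (b : Bool) : ∑ s, ‖uu n i b s‖ ^ 2 = 1 := by
  by_cases h : (i : ℕ) < n
  · simp only [uu, if_pos h, norm_mul, norm_sg, mul_one, norm_h']; simp
  · simp [uu, h]

theorem pp_proj (n : ℕ) (i : Fin N) (b : Bool) : IsStarProjection (pp n i b) := by
  by_cases h : (i : ℕ) < n
  · constructor
    · show pp n i b * pp n i b = pp n i b
      ext s t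
      cases b <;> cases s <;> cases t <;> simp [pp, h, sg, Matrix.mul_apply] <;> norm_num
    · show star (pp n i b) = pp n i b
      ext s t
      cases b <;> cases s <;> cases t <;> simp [pp, h, sg]
  · simp only [pp, if_neg h]; exact IsStarProjection.one _

theorem pp_vv (n : ℕ) (i : Fin N) (b : Bool) : pp n i b *ᵥ vv n i b = vv n i b := by
  by_cases h : (i : ℕ) < n
  · funext s
    cases b <;> cases s <;> simp [pp, vv, h, sg, mulVec, dotProduct] <;> ring
  · simp [pp, h]

theorem uu_pp (n : ℕ) (i : Fin N) (b : Bool) (h : (i : ℕ) < n) : uu n i b ᵥ* pp n i b = 0 := by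
  funext s
  cases b <;> cases s <;> simp [pp, uu, h, sg, vecMul, dotProduct]

theorem uu_E (n : ℕ) (y : Fin N → Bool) (T : Finset (Fin N)) :
    pv (fun i => uu n i (y i)) ᵥ* E (fun i => pp n i (y i)) T =
      if T = univ.filter (fun i : Fin N => (i : ℕ) < n) then pv (fun i => uu n i (y i)) else 0 := by
  unfold E
  rw [vecMul_tp]
  split_ifs with hT
  · congr 1
    funext i
    by_cases h : (i : ℕ) < n
    · have : i ∈ T := by simp [hT, h]
      rw [if_pos this, vecMul_sub, uu_pp n i _ h, vecMul_one, sub_zero]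
    · have : i ∉ T := by simp [hT, h]
      rw [if_neg this]; simp [pp, h]
  · have : ∃ i, ¬ (i ∈ T ↔ (i : ℕ) < n) := by
      by_contra hc
      push Not at hc
      exact hT (by ext i; simp [hc i])
    obtain ⟨i, hi⟩ := this
    funext σ
    refine Finset.prod_eq_zero (Finset.mem_univ i) ?_
    by_cases h : (i : ℕ) < n
    · have : i ∉ T := fun h' => hi (by simp [h, h'])
      simp only [if_neg this, uu_pp n i _ h, Pi.zero_apply]
    · have : i ∈ T := by by_contra h'; exact hi (by simp [h, h'])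
      simp [this, pp, h]

theorem card_lt (n : ℕ) (hn : n ≤ N) : (univ.filter fun i : Fin N => (i : ℕ) < n).card = n := by
  rw [Fin.card_filter_val_lt]; omega

theorem uu_Q (n : ℕ) (h1 : 1 ≤ n) (hn : n ≤ N) (y : Fin N → Bool) :
    pv (fun i => uu n i (y i)) ᵥ* Q (fun i => pp n i (y i)) (n - 1) = pv (fun i => uu n i (y i)) := by
  unfold Q
  rw [vecMul_sum]
  rw [Finset.sum_eq_single (univ.filter fun i : Fin N => (i : ℕ) < n)]
  · rw [if_pos (by rw [card_lt n hn]; omega), uu_E, if_pos rfl]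
  · intro T _ hT
    split_ifs
    · rw [uu_E, if_neg hT]
    · simp
  · simp

/-- real weights -/
def dd (n : ℕ) (i : Fin N) (s : Bool) : ℝ :=
  if (i : ℕ) < n then (if s = true then -1 else 1) else if s = true then 0 else 2

theorem sum_uv (n : ℕ) (i : Fin N) (s t : Bool) :
    ∑ b, uu n i b s * vv n i b t = diagonal (fun s => (dd n i s : ℂ)) s t := by
  have hI : Complex.I * Complex.I = -1 := Complex.I_mul_I
  by_cases h : (i : ℕ) < n
  · cases s <;> cases t <;> simp [uu, vv, dd, h, sg]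
    · linear_combination (-1 / 2 : ℂ) * hI
    · linear_combination (1 / 2 : ℂ) * hI
  · cases s <;> cases t <;> simp [uu, vv, dd, h]

theorem sum_bil (n : ℕ) (F : Mat N) :
    ∑ y : Fin N → Bool, pv (fun i => uu n i (y i)) ⬝ᵥ (F *ᵥ pv fun i => vv n i (y i)) =
      ∑ σ, ((∏ i, dd n i (σ i) : ℝ) : ℂ) * F σ σ := by
  have key : ∀ σ τ : Fin N → Bool,
      ∑ y : Fin N → Bool, pv (fun i => uu n i (y i)) σ * pv (fun i => vv n i (y i)) τ =
        diagonal (pv fun i s => (dd n i s : ℂ)) σ τ := by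
    intro σ τ
    rw [← tp_diagonal]
    simp only [pv, tp, of_apply, ← Finset.prod_mul_distrib, ← sum_uv]
    exact sum_prod fun i b => uu n i b (σ i) * vv n i b (τ i)
  simp only [dotProduct, mulVec, Finset.mul_sum]
  rw [Finset.sum_comm]
  refine Finset.sum_congr rfl fun σ _ => ?_
  rw [Finset.sum_comm]
  have : ∀ τ, ∑ y : Fin N → Bool, pv (fun i => uu n i (y i)) σ *
      (F σ τ * pv (fun i => vv n i (y i)) τ) =
      diagonal (pv fun i s => (dd n i s : ℂ)) σ τ * F σ τ := by
    intro τ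
    rw [← key, Finset.sum_mul]
    refine Finset.sum_congr rfl fun y _ => by ring
  simp only [this]
  rw [Finset.sum_eq_single σ]
  · simp [pv]
  · intro τ _ hτ
    rw [diagonal_apply_ne _ (Ne.symm hτ), zero_mul]
  · simp

/-- the measured projection -/
noncomputable def cc (o : Fin N) (i : Fin N) : M2 :=
  diagonal fun b => if i = o ∧ b = false then 0 else 1

theorem cc_proj (o i : Fin N) : IsStarProjection (cc o i) := by
  constructor
  · show cc o i * cc o i = cc o i
    unfold cc
    rw [diagonal_mul_diagonal]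
    congr 1; funext b; split_ifs <;> simp
  · show star (cc o i) = cc o i
    unfold cc
    rw [star_eq_conjTranspose, diagonal_conjTranspose]
    congr 1; funext b; simp only [Pi.star_apply]; split_ifs <;> simp

theorem cc_sz (o : Fin N) : sz (cc o) ≤ 1 := by
  classical
  unfold sz
  refine (Finset.card_le_card (t := {o}) ?_).trans (by simp)
  intro i hi
  rw [Finset.mem_filter] at hi
  rw [Finset.mem_singleton]
  by_contra h
  exact hi.2 (by simp [cc, h])

theorem tp_cc (o : Fin N) :
    tp (cc o) = diagonal fun τ : Fin N → Bool => if τ o = true then (1 : ℂ) else 0 := by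
  unfold cc
  rw [tp_diagonal]
  congr 1
  funext τ
  unfold pv
  rw [Finset.prod_eq_single o]
  · cases τ o <;> simp
  · intro i _ hi; simp [hi]
  · simp

theorem mulVec_basis (V : Mat N) (σ τ : Fin N → Bool) : (V *ᵥ basisState σ) τ = V τ σ := by
  simp [mulVec, dotProduct, basisState]

theorem F_diag (V : Mat N) (o : Fin N) (σ : Fin N → Bool) :
    (star V * tp (cc o) * V) σ σ = (outcomeProb o true (V *ᵥ basisState σ) : ℝ) := by
  rw [tp_cc, Matrix.mul_apply]
  unfold outcomeProb
  simp only [mulVec_basis, mul_diagonal, Complex.ofReal_sum]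
  refine Finset.sum_congr rfl fun τ _ => ?_
  split_ifs
  · rw [mul_one, star_apply, Complex.star_def, Complex.conj_mul']; simp
  · simp

theorem prob_add (V : Mat N) (hV : V ∈ unitary (Mat N)) (o : Fin N) (σ : Fin N → Bool) :
    outcomeProb o true (V *ᵥ basisState σ) + outcomeProb o false (V *ᵥ basisState σ) = 1 := by
  have h : (star V * V) σ σ = 1 := by rw [Unitary.star_mul_self_of_mem hV]; simp
  rw [Matrix.mul_apply] at h
  have h2 : ((∑ τ, ‖V τ σ‖ ^ 2 : ℝ) : ℂ) = 1 := by
    rw [← h, Complex.ofReal_sum]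
    refine Finset.sum_congr rfl fun τ _ => ?_
    rw [star_apply, Complex.star_def, Complex.conj_mul']; simp
  have h3 : ∑ τ, ‖V τ σ‖ ^ 2 = 1 := by exact_mod_cast h2
  rw [← h3]
  unfold outcomeProb
  simp only [mulVec_basis, ← Finset.sum_add_distrib]
  refine Finset.sum_congr rfl fun τ _ => ?_
  cases τ o <;> simp

theorem sum_dd (n : ℕ) (h1 : 1 ≤ n) (hn : n ≤ N) :
    ∑ σ : Fin N → Bool, ∏ i, dd n i (σ i) = 0 := by
  rw [sum_prod]
  refine Finset.prod_eq_zero (Finset.mem_univ (⟨0, by omega⟩ : Fin N)) ?_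
  have : 0 < n := h1
  simp [dd, this]

theorem sum_abs_dd (n : ℕ) : ∑ σ : Fin N → Bool, |∏ i, dd n i (σ i)| = 2 ^ N := by
  simp only [Finset.abs_prod]
  rw [sum_prod fun i b => |dd n i b|]
  have : ∀ i : Fin N, ∑ b, |dd n i b| = 2 := by
    intro i
    by_cases h : (i : ℕ) < n
    · simp [dd, h]; norm_num
    · simp [dd, h]
  simp only [this, Finset.prod_const, Finset.card_univ, Fintype.card_fin]

theorem dd_sign (n : ℕ) (hn : n ≤ N) (σ : Fin N → Bool) :
    ∏ i, dd n i (σ i) = (if parity (fun j : Fin n => σ (Fin.castLE hn j)) = true then -1 else 1) *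
      |∏ i, dd n i (σ i)| := by
  have h1 : ∀ i, dd n i (σ i) =
      (if (i : ℕ) < n ∧ σ i = true then -1 else 1) * |dd n i (σ i)| := by
    intro i
    by_cases h : (i : ℕ) < n <;> cases σ i <;> simp [dd, h]
  have h2 : (univ.filter fun i : Fin N => (i : ℕ) < n ∧ σ i = true).card =
      (univ.filter fun j : Fin n => σ (Fin.castLE hn j) = true).card := by
    symm
    refine Finset.card_bij (fun j _ => Fin.castLE hn j) ?_ ?_ ?_
    · intro j hj
      simpa using hj
    · intro a _ b _ h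
      exact Fin.castLE_injective hn h
    · intro i hi
      rw [Finset.mem_filter] at hi
      exact ⟨⟨i, hi.2.1⟩, by simpa using hi.2.2, rfl⟩
  rw [Finset.abs_prod, Finset.prod_congr rfl fun i _ => h1 i, Finset.prod_mul_distrib]
  congr 1
  rw [Finset.prod_ite, Finset.prod_const_one, mul_one, Finset.prod_const, h2]
  unfold parity
  generalize (univ.filter fun j : Fin n => σ (Fin.castLE hn j) = true).card = k
  rcases Nat.even_or_odd k with hk | hk
  · rw [hk.neg_one_pow, if_neg]
    obtain ⟨r, rfl⟩ := hk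
    simp [Nat.bodd_add]
  · rw [hk.neg_one_pow, if_pos]
    obtain ⟨r, rfl⟩ := hk
    have h0 : Nat.bodd 2 = false := rfl
    simp [h0]

theorem eq_input (n : ℕ) (hn : n ≤ N) (σ : Fin N → Bool) (h : ∏ i, dd n i (σ i) ≠ 0) :
    inputString n (fun j : Fin n => σ (Fin.castLE hn j)) = σ := by
  funext i
  unfold inputString
  split_ifs with hi
  · rfl
  · have := Finset.prod_ne_zero_iff.1 h i (Finset.mem_univ i)
    by_contra hc
    have h' : σ i = true := by simpa using hc
    simp [dd, hi, h'] at this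

end ParP

open ParP in
theorem par : ParStmt := by
  intro n N h1 hn V hV o ε hX
  by_contra hc
  push Not at hc
  obtain ⟨F, hF⟩ : ∃ F : Mat N, F = star V * tp (cc o) * V := ⟨_, rfl⟩
  have hterm : ∀ y : Fin N → Bool,
      ‖pv (fun i => uu n i (y i)) ⬝ᵥ (F *ᵥ pv fun i => vv n i (y i))‖ < ε := by
    intro y
    have h := hX (fun i => pp n i (y i)) (cc o) (fun i => pp_proj n i _) (cc_proj o) (cc_sz o)
    unfold X at h
    rw [star_star, ← hF] at h
    refine lt_of_le_of_lt ?_ h
    have h' := bil_le (Q (fun i => pp n i (y i)) (n - 1) * F * tp fun i => pp n i (y i))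
      (fun i => uu n i (y i)) (fun i => vv n i (y i))
      (fun i => uu_norm n i _) (fun i => vv_norm n i _)
    rw [← mulVec_mulVec, ← mulVec_mulVec, dotProduct_mulVec _ (Q _ _), uu_Q n h1 hn, tp_mulVec] at h'
    simp only [pp_vv] at h'
    exact h'
  have hsum : ‖∑ y : Fin N → Bool,
      pv (fun i => uu n i (y i)) ⬝ᵥ (F *ᵥ pv fun i => vv n i (y i))‖ < 2 ^ N * ε := by
    refine (norm_sum_le _ _).trans_lt ?_
    refine (Finset.sum_lt_sum_of_nonempty Finset.univ_nonempty fun y _ => hterm y).trans_le ?_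
    simp
  rw [sum_bil] at hsum
  simp only [hF, F_diag, ← Complex.ofReal_mul, ← Complex.ofReal_sum, Complex.norm_real,
    Real.norm_eq_abs] at hsum
  have hle : ∀ σ : Fin N → Bool, (∏ i, dd n i (σ i)) * outcomeProb o true (V *ᵥ basisState σ) ≤
      (∏ i, dd n i (σ i)) / 2 - ε * |∏ i, dd n i (σ i)| := by
    intro σ
    by_cases h0 : ∏ i, dd n i (σ i) = 0
    · simp [h0]
    have h2 := hc fun j : Fin n => σ (Fin.castLE hn j)
    rw [eq_input n hn σ h0] at h2
    have h3 := dd_sign n hn σ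
    have h4 := prob_add V hV o σ
    have h5 := abs_nonneg (∏ i, dd n i (σ i))
    generalize |∏ i, dd n i (σ i)| = e at h3 h5 ⊢
    generalize ∏ i, dd n i (σ i) = d at h3 ⊢
    cases hp : parity (fun j : Fin n => σ (Fin.castLE hn j))
    · rw [hp] at h2 h3
      simp only [Bool.false_eq_true, if_false, one_mul] at h3
      subst h3
      nlinarith
    · rw [hp] at h2 h3
      simp only [if_true] at h3
      subst h3
      nlinarith
  have h6 := Finset.sum_le_sum fun σ (_ : σ ∈ univ) => hle σ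
  rw [Finset.sum_sub_distrib, ← Finset.sum_div, sum_dd n h1 hn, ← Finset.mul_sum, sum_abs_dd] at h6
  have h7 := neg_abs_le
    (∑ σ : Fin N → Bool, (∏ i, dd n i (σ i)) * outcomeProb o true (V *ᵥ basisState σ))
  linarith

end Crest.Agent.QAC
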