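import Crest.Agent.QAC.Defs

/-! Piece POLY of S0539: low degree approximation of the indicator of the empty set. -/

set_option autoImplicit false
open Finset

namespace Crest.Agent.QAC

namespace PolyAux

variable {N : ℕ}

/-- functions of a set with a short low degree expansion in monotone monomials -/
def Cls (r : ℕ) (M : ℝ) (f : Finset (Fin N) → ℝ) : Prop :=
  ∃ a : Finset (Fin N) → ℝ, (∀ S, a S ≠ 0 → S.card ≤ r) ∧ ∑ S, |a S| ≤ M ∧
    ∀ T, f T = ∑ S with S ⊆ T, a S

theorem Cls.mono {r r' : ℕ} {M M' : ℝ} {f : Finset (Fin N) → ℝ} (h : Cls r M f) (hr : r ≤ r')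
    (hM : M ≤ M') : Cls r' M' f := by
  obtain ⟨a, h1, h2, h3⟩ := h
  exact ⟨a, fun S hS => (h1 S hS).trans hr, h2.trans hM, h3⟩

theorem Cls.congr {r : ℕ} {M : ℝ} {f g : Finset (Fin N) → ℝ} (h : Cls r M f)
    (hfg : ∀ T, g T = f T) : Cls r M g := by
  obtain ⟨a, h1, h2, h3⟩ := h
  exact ⟨a, h1, h2, fun T => (hfg T).trans (h3 T)⟩

theorem cls_const (c : ℝ) : Cls (N := N) 0 |c| (fun _ => c) := by
  refine ⟨fun S => if S = ∅ then c else 0, ?_, ?_, ?_⟩
  · intro S hS
    by_cases h : S = ∅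
    · simp [h]
    · simp [h] at hS
  · have : ∀ S : Finset (Fin N), |(if S = ∅ then c else 0 : ℝ)| = if S = ∅ then |c| else 0 := by
      intro S; split_ifs <;> simp
    simp only [this]
    simp
  · intro T
    rw [Finset.sum_ite_eq']
    simp

theorem cls_card : Cls (N := N) 1 N (fun T => (T.card : ℝ)) := by
  refine ⟨fun S => if S.card = 1 then 1 else 0, ?_, ?_, ?_⟩
  · intro S hS
    by_cases h : S.card = 1
    · exact h.le
    · simp [h] at hS
  · have : ∀ S : Finset (Fin N), |(if S.card = 1 then 1 else 0 : ℝ)| =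
        if S.card = 1 then 1 else 0 := by
      intro S; split_ifs <;> simp
    simp only [this]
    rw [Finset.sum_boole]
    have h2 : (univ.filter fun S : Finset (Fin N) => S.card = 1) = powersetCard 1 univ := by
      ext S; simp [mem_powersetCard]
    rw [h2, card_powersetCard]; simp
  · intro T
    rw [Finset.sum_boole]
    have h2 : ((univ.filter fun S : Finset (Fin N) => S ⊆ T).filter fun S => S.card = 1) =
        powersetCard 1 T := by
      ext S; simp [mem_powersetCard]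
    rw [h2, card_powersetCard]; simp

theorem Cls.add {r : ℕ} {M M' : ℝ} {f g : Finset (Fin N) → ℝ} (hf : Cls r M f) (hg : Cls r M' g) :
    Cls r (M + M') (fun T => f T + g T) := by
  obtain ⟨a, h1, h2, h3⟩ := hf
  obtain ⟨b, k1, k2, k3⟩ := hg
  refine ⟨fun S => a S + b S, ?_, ?_, ?_⟩
  · intro S hS
    by_cases h : a S = 0
    · exact k1 S (by simpa [h] using hS)
    · exact h1 S h
  · calc ∑ S, |a S + b S| ≤ ∑ S, (|a S| + |b S|) := sum_le_sum fun S _ => abs_add_le _ _
      _ = ∑ S, |a S| + ∑ S, |b S| := sum_add_distrib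
      _ ≤ M + M' := add_le_add h2 k2
  · intro T
    rw [sum_add_distrib, ← h3, ← k3]

theorem Cls.smul {r : ℕ} {M : ℝ} {f : Finset (Fin N) → ℝ} (hf : Cls r M f) (c : ℝ) :
    Cls r (|c| * M) (fun T => c * f T) := by
  obtain ⟨a, h1, h2, h3⟩ := hf
  refine ⟨fun S => c * a S, ?_, ?_, ?_⟩
  · intro S hS
    exact h1 S (right_ne_zero_of_mul hS)
  · simp only [abs_mul]
    rw [← mul_sum]
    exact mul_le_mul_of_nonneg_left h2 (abs_nonneg c)
  · intro T
    rw [← mul_sum, ← h3]

theorem Cls.mul {r r' : ℕ} {M M' : ℝ} {f g : Finset (Fin N) → ℝ} (hf : Cls r M f)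
    (hg : Cls r' M' g) : Cls (r + r') (M * M') (fun T => f T * g T) := by
  obtain ⟨a, h1, h2, h3⟩ := hf
  obtain ⟨b, k1, k2, k3⟩ := hg
  refine ⟨fun S => ∑ p : Finset (Fin N) × Finset (Fin N) with p.1 ∪ p.2 = S, a p.1 * b p.2,
    ?_, ?_, ?_⟩
  · intro S hS
    obtain ⟨p, hp, hp'⟩ := exists_ne_zero_of_sum_ne_zero hS
    have hS' : p.1 ∪ p.2 = S := (mem_filter.1 hp).2
    rw [← hS']
    exact (card_union_le _ _).trans
      (add_le_add (h1 _ (left_ne_zero_of_mul hp')) (k1 _ (right_ne_zero_of_mul hp')))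
  · calc ∑ S, |∑ p : Finset (Fin N) × Finset (Fin N) with p.1 ∪ p.2 = S, a p.1 * b p.2|
        ≤ ∑ S, ∑ p : Finset (Fin N) × Finset (Fin N) with p.1 ∪ p.2 = S, |a p.1 * b p.2| :=
          sum_le_sum fun S _ => abs_sum_le_sum_abs _ _
      _ = ∑ p : Finset (Fin N) × Finset (Fin N), |a p.1 * b p.2| :=
          sum_fiberwise univ (fun p : Finset (Fin N) × Finset (Fin N) => p.1 ∪ p.2) _
      _ = (∑ S, |a S|) * ∑ S, |b S| := by
          rw [sum_mul_sum, Fintype.sum_prod_type]
          simp only [abs_mul]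
      _ ≤ M * M' := mul_le_mul h2 k2 (sum_nonneg fun _ _ => abs_nonneg _)
          ((sum_nonneg fun _ _ => abs_nonneg _).trans h2)
  · intro T
    beta_reduce
    rw [h3, k3, sum_mul_sum, ← sum_product']
    rw [← sum_fiberwise_of_maps_to (s := (univ.filter fun S : Finset (Fin N) => S ⊆ T) ×ˢ
      (univ.filter fun S : Finset (Fin N) => S ⊆ T))
      (t := univ.filter fun S : Finset (Fin N) => S ⊆ T)
      (g := fun p : Finset (Fin N) × Finset (Fin N) => p.1 ∪ p.2)]
    · refine sum_congr rfl fun S hS => sum_congr ?_ fun _ _ => rfl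
      ext p
      simp only [mem_filter, mem_product, mem_univ, true_and] at hS ⊢
      constructor
      · exact fun h => h.2
      · intro h
        refine ⟨⟨?_, ?_⟩, h⟩
        · exact subset_union_left.trans (h ▸ hS)
        · exact subset_union_right.trans (h ▸ hS)
    · intro p hp
      simp only [mem_filter, mem_product, mem_univ, true_and] at hp ⊢
      exact union_subset hp.1 hp.2

theorem Cls.pow {r : ℕ} {M : ℝ} {f : Finset (Fin N) → ℝ} (hf : Cls r M f) (t : ℕ) :
    Cls (r * t) (M ^ t) (fun T => f T ^ t) := by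
  induction t with
  | zero => simpa using cls_const (N := N) 1
  | succ t ih =>
    have := ih.mul hf
    refine (this.mono (by rw [Nat.mul_succ]) (by rw [pow_succ])).congr fun T => ?_
    rw [pow_succ]

/-- Chebyshev polynomials -/
noncomputable def ch (x : ℝ) : ℕ → ℝ
  | 0 => 1
  | 1 => x
  | n + 2 => 2 * x * ch x (n + 1) - ch x n

theorem ch_cos (θ : ℝ) : ∀ n : ℕ, ch (Real.cos θ) n = Real.cos (n * θ)
  | 0 => by simp [ch]
  | 1 => by simp [ch]
  | n + 2 => by
    rw [ch, ch_cos θ (n + 1), ch_cos θ n]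
    have e1 : ((n + 2 : ℕ) : ℝ) * θ = ((n + 1 : ℕ) : ℝ) * θ + θ := by push_cast; ring
    have e2 : (n : ℝ) * θ = ((n + 1 : ℕ) : ℝ) * θ - θ := by push_cast; ring
    rw [e1, e2, Real.cos_add, Real.cos_sub]
    ring

theorem abs_ch_le {x : ℝ} (h1 : -1 ≤ x) (h2 : x ≤ 1) (n : ℕ) : |ch x n| ≤ 1 := by
  rw [← Real.cos_arccos h1 h2, ch_cos]
  exact Real.abs_cos_le_one _

theorem ch_ge {d : ℝ} (hd : 0 ≤ d) (n : ℕ) :
    1 + n ^ 2 * d ≤ ch (1 + d) n ∧ (2 * n + 1) * d ≤ ch (1 + d) (n + 1) - ch (1 + d) n := by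
  induction n with
  | zero => simp [ch]
  | succ n ih =>
    obtain ⟨h1, h2⟩ := ih
    have h3 : 1 + ((n : ℝ) + 1) ^ 2 * d ≤ ch (1 + d) (n + 1) := by nlinarith
    refine ⟨by push_cast; exact h3, ?_⟩
    have h4 : 1 ≤ ch (1 + d) (n + 1) := by nlinarith [mul_nonneg (sq_nonneg ((n : ℝ) + 1)) hd]
    have h5 : ch (1 + d) (n + 1 + 1) = 2 * (1 + d) * ch (1 + d) (n + 1) - ch (1 + d) n := rfl
    rw [h5]
    push_cast
    nlinarith [mul_le_mul_of_nonneg_left h4 hd]

theorem cls_ch {B : ℝ} (hB : 1 ≤ B) {z : Finset (Fin N) → ℝ} (hz : Cls 1 ((B - 1) / 2) z) :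
    ∀ n : ℕ, Cls n (B ^ n) (fun T => ch (z T) n)
  | 0 => by simpa [ch] using cls_const (N := N) 1
  | 1 => (hz.mono le_rfl (by rw [pow_one]; linarith)).congr fun T => rfl
  | n + 2 => by
    have h1 := ((hz.mul (cls_ch hB hz (n + 1))).smul 2).mono (r' := n + 2) (by omega) le_rfl
    have h2 := ((cls_ch hB hz n).smul (-1)).mono (r' := n + 2) (by omega) le_rfl
    refine ((h1.add h2).mono le_rfl ?_).congr fun T => ?_
    · have h3 : B ^ n ≤ B ^ (n + 1) := pow_le_pow_right₀ hB (by omega)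
      have h4 : B ^ (n + 2) = B * B ^ (n + 1) := by ring
      rw [h4, abs_neg, abs_one, abs_two]
      nlinarith
    · rw [ch]; ring

theorem cls_prod (m : ℕ) :
    Cls (N := N) m ((N + 1 : ℝ) ^ m) (fun T => ∏ i ∈ range m, (1 - (T.card : ℝ) / (i + 1))) := by
  induction m with
  | zero => simpa using cls_const (N := N) 1
  | succ m ih =>
    have hpos : (0 : ℝ) < m + 1 := by positivity
    have h1 : Cls (N := N) 1 (N + 1 : ℝ) (fun T => 1 - (T.card : ℝ) / (m + 1)) := by
      have := ((cls_const (N := N) 1).mono (r' := 1) (by omega) le_rfl).add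
        ((cls_card (N := N)).smul (-(1 / (m + 1))))
      refine (this.mono le_rfl ?_).congr fun T => by ring
      rw [abs_one, abs_neg, abs_of_pos (by positivity)]
      have : 1 / ((m : ℝ) + 1) ≤ 1 := by
        rw [div_le_one hpos]; linarith [(Nat.cast_nonneg m : (0 : ℝ) ≤ m)]
      nlinarith [(Nat.cast_nonneg N : (0 : ℝ) ≤ N)]
    refine ((ih.mul h1).mono le_rfl (by rw [pow_succ])).congr fun T => ?_
    rw [prod_range_succ]

theorem abs_prod_le (m : ℕ) (T : Finset (Fin N)) :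
    |∏ i ∈ range m, (1 - (T.card : ℝ) / (i + 1))| ≤ (N + 1 : ℝ) ^ m := by
  rw [abs_prod]
  have hT : (T.card : ℝ) ≤ N := by
    have := card_le_univ T
    rw [Fintype.card_fin] at this
    exact_mod_cast this
  calc ∏ i ∈ range m, |1 - (T.card : ℝ) / (i + 1)| ≤ ∏ _i ∈ range m, (N + 1 : ℝ) := by
        refine prod_le_prod (fun _ _ => abs_nonneg _) fun i _ => ?_
        have hpos : (0 : ℝ) < i + 1 := by positivity
        have h0 : (0 : ℝ) ≤ T.card / (i + 1) := by positivity
        have h1 : (T.card : ℝ) / (i + 1) ≤ T.card :=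
          div_le_self (Nat.cast_nonneg _) (by linarith [(Nat.cast_nonneg i : (0 : ℝ) ≤ i)])
        rw [abs_le]
        constructor <;> linarith [(Nat.cast_nonneg N : (0 : ℝ) ≤ N)]
    _ = (N + 1 : ℝ) ^ m := by simp

end PolyAux

open PolyAux in
theorem poly : PolyStmt := by
  intro N m u t hm hu
  have hm' : (1 : ℝ) ≤ m := by exact_mod_cast hm
  have hu' : (1 : ℝ) ≤ u := by exact_mod_cast hu
  have hN : (0 : ℝ) ≤ N := Nat.cast_nonneg N
  have hu2 : (1 : ℝ) ≤ (u : ℝ) ^ 2 := one_le_pow₀ hu'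
  have hmu : (1 : ℝ) ≤ m * (u : ℝ) ^ 2 := one_le_mul_of_one_le_of_one_le hm' hu2
  set d : ℝ := 2 / (u : ℝ) ^ 2 with hd
  have hd0 : 0 ≤ d := by positivity
  have hd2 : d ≤ 2 := by rw [hd]; exact div_le_self (by norm_num) hu2
  set e : ℝ := 2 / (m * (u : ℝ) ^ 2) with he
  have he0 : 0 ≤ e := by positivity
  have he2 : e ≤ 2 := by rw [he]; exact div_le_self (by norm_num) hmu
  set c : ℝ := ch (1 + d) u with hc
  have hc3 : 3 ≤ c := by
    have h := (ch_ge hd0 u).1
    have : (u : ℝ) ^ 2 * d = 2 := by rw [hd]; field_simp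
    linarith
  have hz : Cls (N := N) 1 (((4 * N + 7 : ℝ) - 1) / 2) (fun T => 1 + d - e * T.card) := by
    have := ((cls_const (N := N) (1 + d)).mono (r' := 1) (by omega) le_rfl).add
      ((cls_card (N := N)).smul (-e))
    refine (this.mono le_rfl ?_).congr fun T => by ring
    rw [abs_neg, abs_of_nonneg he0, abs_of_nonneg (by linarith)]
    nlinarith
  have hch := (cls_ch (B := 4 * N + 7) (by linarith) hz u).smul (1 / c)
  have hch' : Cls (N := N) u ((4 * N + 7 : ℝ) ^ u)
      (fun T => 1 / c * ch (1 + d - e * T.card) u) := by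
    refine hch.mono le_rfl ?_
    rw [abs_of_pos (by positivity)]
    have : 1 / c ≤ 1 := by rw [div_le_one (by linarith)]; linarith
    have h0 : (0 : ℝ) ≤ (4 * N + 7 : ℝ) ^ u := by positivity
    nlinarith
  have hp := ((cls_prod (N := N) m).mono le_rfl
    (pow_le_pow_left₀ (by positivity) (by linarith : (N + 1 : ℝ) ≤ 4 * N + 7) m)).mul (hch'.pow t)
  obtain ⟨a, h1, h2, h3⟩ := hp
  refine ⟨a, h1, ?_, ?_, ?_⟩
  · rw [pow_add, pow_mul]; exact h2
  · have h := h3 ∅
    have e1 : (univ.filter fun S : Finset (Fin N) => S ⊆ ∅) = {∅} := by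
      ext S; simp
    rw [e1, sum_singleton] at h
    rw [← h]
    have hc0 : c ≠ 0 := by linarith
    simp [← hc, hc0]
  · intro T hT1 hT2
    rw [← h3 T]
    by_cases hTm : T.card ≤ m
    · have : ∏ i ∈ range m, (1 - (T.card : ℝ) / (i + 1)) = 0 := by
        refine prod_eq_zero (i := T.card - 1) (mem_range.2 (by omega)) ?_
        have e1 : ((T.card - 1 : ℕ) : ℝ) + 1 = T.card := by
          rw [Nat.cast_sub hT1]; simp
        have e2 : (T.card : ℝ) ≠ 0 := by
          have : T.card ≠ 0 := by omega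
          exact_mod_cast this
        rw [e1, div_self e2, sub_self]
      simp only [this, zero_mul, abs_zero]
      positivity
    · have hTm' : (m : ℝ) ≤ T.card := by exact_mod_cast (not_le.1 hTm).le
      have hT2' : (T.card : ℝ) ≤ m * (u : ℝ) ^ 2 := by exact_mod_cast hT2
      have hem : e * m = d := by rw [he, hd]; field_simp
      have hemu : e * (m * (u : ℝ) ^ 2) = 2 := by rw [he]; field_simp
      have hz1 : 1 + d - e * T.card ≤ 1 := by nlinarith [mul_le_mul_of_nonneg_left hTm' he0]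
      have hz2 : -1 ≤ 1 + d - e * T.card := by nlinarith [mul_le_mul_of_nonneg_left hT2' he0]
      have hb := abs_ch_le hz2 hz1 u
      have hq : |1 / c * ch (1 + d - e * T.card) u| ≤ 1 / 3 := by
        rw [abs_mul, abs_of_pos (by positivity : (0 : ℝ) < 1 / c)]
        have : 1 / c ≤ 1 / 3 := one_div_le_one_div_of_le (by norm_num) hc3
        have h0 : (0 : ℝ) ≤ 1 / c := by positivity
        nlinarith [abs_nonneg (ch (1 + d - e * T.card) u)]
      have e3 : ((N : ℝ) + 1) ^ m / 3 ^ t = ((N : ℝ) + 1) ^ m * (1 / 3) ^ t := by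
        rw [one_div_pow]; ring
      rw [abs_mul, abs_pow, e3]
      exact mul_le_mul (abs_prod_le m T) (pow_le_pow_left₀ (abs_nonneg _) hq t) (by positivity)
        (by positivity)

end Crest.Agent.QAC
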