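import Crest.Agent.QAC.TP

/-! The bootstrap. -/

set_option autoImplicit false
open Finset
open scoped Matrix.Norms.L2Operator

namespace Crest.Agent.QAC
variable {N : ℕ}

/-- monomial in the excitations -/
def mon (c : Fin N → M2) (S : Finset (Fin N)) : Fin N → M2 := fun i => if i ∈ S then 1 - c i else 1

lemma PF.mon {c : Fin N → M2} (h : PF c) (S : Finset (Fin N)) : PF (mon c S) := fun i => by
  unfold QAC.mon
  split_ifs
  · exact (h i).one_sub
  · exact IsStarProjection.one _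

lemma sz_mon (c : Fin N → M2) (S : Finset (Fin N)) : sz (mon c S) ≤ S.card := by
  unfold sz
  refine Finset.card_le_card fun i hi => ?_
  by_contra h
  simp [mon, h] at hi

lemma tp_mon {c : Fin N → M2} (h : PF c) (S : Finset (Fin N)) :
    tp (mon c S) = ∑ T, if S ⊆ T then E c T else 0 := by
  rw [← mul_one (tp _), ← E_sum c, Finset.mul_sum]
  refine Finset.sum_congr rfl fun T _ => ?_
  rw [E, tp_mul]
  split_ifs with hT
  · congr 1
    funext i
    by_cases hi : i ∈ S
    · simp [mon, hi, hT hi, (h i).one_sub.isIdempotentElem.eq]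
    · simp [mon, hi]
  · obtain ⟨i, hi, hi'⟩ := Finset.not_subset.1 hT
    refine tp_eq_zero i ?_
    simp [mon, hi, hi', sub_mul, (h i).isIdempotentElem.eq]

lemma X_le_one {U : Mat N} (hU : U ∈ unitary (Mat N)) {π c : Fin N → M2} (hπ : PF π) (hc : PF c)
    (k : ℕ) : X U π c k ≤ 1 := by
  have h1 := (Q_proj hπ k).norm_le
  have h2 := hπ.proj.norm_le
  have h3 := hc.proj.norm_le
  have h4 := norm_unitary_le hU
  have h5 := norm_unitary_le (Unitary.star_mem hU)
  have m : ∀ {a b : Mat N}, ‖a‖ ≤ 1 → ‖b‖ ≤ 1 → ‖a * b‖ ≤ 1 := fun ha hb =>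
    (norm_mul_le _ _).trans (mul_le_one₀ ha (norm_nonneg _) hb)
  exact m (m h1 (m (m h4 h3) h5)) h2

lemma X_zero (U : Mat N) (π c : Fin N → M2) {k : ℕ} (hk : N ≤ k) : X U π c k = 0 := by
  have : Q π k = 0 := Finset.sum_eq_zero fun T _ => if_neg (by
    have := Finset.card_le_univ T
    simp at this
    omega)
  simp [X, this]

lemma core {U : Mat N} (hU : U ∈ unitary (Mat N)) {π c : Fin N → M2} (hπ : PF π) (hc : PF c)
    (k e r : ℕ) (a : Finset (Fin N) → ℝ) {B η β : ℝ} (hη : 0 < η) (hβ : 0 ≤ β)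
    (h1 : ∀ S, a S ≠ 0 → S.card ≤ r) (h2 : ∑ S, |a S| ≤ B) (h3 : a ∅ = 1)
    (h4 : ∀ T : Finset (Fin N), 1 ≤ T.card → T.card ≤ e → |∑ S with S ⊆ T, a S| ≤ η)
    (h5 : ∀ c', PF c' → X U π c' k ≤ 300 ^ sz c' * β) :
    X U π c k ^ 2 ≤ B * (300 ^ r * β) + η + B * X (star U) c π e := by
  have m : ∀ {a b : Mat N} {s : ℝ}, ‖a‖ ≤ s → ‖b‖ ≤ 1 → ‖a * b‖ ≤ s := fun ha hb =>
    (norm_mul_le _ _).trans ((mul_le_of_le_one_right (norm_nonneg _) hb).trans ha)
  have m' : ∀ {a b : Mat N} {s : ℝ}, ‖a‖ ≤ 1 → ‖b‖ ≤ s → ‖a * b‖ ≤ s := fun ha hb =>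
    (norm_mul_le _ _).trans ((mul_le_of_le_one_left (norm_nonneg _) ha).trans hb)
  have n1 := (Q_proj hπ k).norm_le
  have n2 := hπ.proj.norm_le
  have n3 := hc.proj.norm_le
  have n4 := norm_unitary_le hU
  have n5 := norm_unitary_le (Unitary.star_mem hU)
  have B1 : 1 ≤ B := by
    refine le_trans ?_ h2
    simpa [h3] using Finset.single_le_sum (f := fun S => |a S|) (fun _ _ => abs_nonneg _)
      (mem_univ ∅)
  let p : Finset (Fin N) → ℝ := fun T => ∑ S with S ⊆ T, a S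
  let g : Finset (Fin N) → ℝ := fun T => if 1 ≤ T.card ∧ T.card ≤ e then -p T else 0
  have p0 : p ∅ = 1 := by
    simp only [p, Finset.subset_empty]
    rw [Finset.filter_eq' univ ∅]; simp [h3]
  have np : ‖fn c fun T => (p T : ℂ)‖ ≤ B := norm_fn_le hc p (by linarith) fun T =>
    (Finset.abs_sum_le_sum_abs _ _).trans ((Finset.sum_le_sum_of_subset_of_nonneg
      (Finset.filter_subset _ _) fun _ _ _ => abs_nonneg _).trans h2)
  have ng : ‖fn c fun T => (g T : ℂ)‖ ≤ η := norm_fn_le hc g hη fun T => by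
    simp only [g]
    split_ifs with h
    · rw [abs_neg]; exact h4 T h.1 h.2
    · simpa using hη.le
  have e1 : (fn c fun T => (p T : ℂ)) = ∑ S, (a S : ℂ) • tp (mon c S) := by
    simp only [fn, p, tp_mon hc, Finset.smul_sum, Finset.sum_filter, Complex.ofReal_sum,
      Finset.sum_smul]
    rw [Finset.sum_comm]
    refine Finset.sum_congr rfl fun S _ => Finset.sum_congr rfl fun T _ => ?_
    split_ifs <;> simp
  have e2 : tp c = (fn c fun T => (p T : ℂ)) + (fn c fun T => (g T : ℂ)) -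
      (fn c fun T => (p T : ℂ)) * Q c e := by
    rw [Q_eq, fn_mul hc, ← E_empty]
    simp only [fn, ← Finset.sum_add_distrib, ← Finset.sum_sub_distrib, ← add_smul, ← sub_smul]
    rw [Finset.sum_eq_single ∅]
    · simp [g, p0]
    · intro T _ hT
      have : 1 ≤ T.card := Finset.card_pos.2 (Finset.nonempty_iff_ne_empty.2 hT)
      by_cases h : T.card ≤ e
      · simp only [g, if_pos (And.intro this h), if_neg (not_lt.2 h)]
        simp
      · simp [g, h, not_le.1 h]
    · simp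
  have b1 : ‖Q π k * (U * (fn c fun T => (p T : ℂ)) * star U) * tp π‖ ≤ B * (300 ^ r * β) := by
    rw [e1]
    simp only [Finset.mul_sum, Finset.sum_mul, mul_smul_comm, smul_mul_assoc]
    refine (norm_sum_le _ _).trans (le_trans (Finset.sum_le_sum
      (g := fun S => |a S| * (300 ^ r * β)) fun S _ => ?_) ?_)
    · rw [norm_smul, Complex.norm_real, Real.norm_eq_abs]
      by_cases hS : a S = 0
      · simp [hS]
      refine mul_le_mul_of_nonneg_left ((h5 _ (hc.mon S)).trans ?_) (abs_nonneg _)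
      exact mul_le_mul_of_nonneg_right
        (pow_le_pow_right₀ (by norm_num) ((sz_mon c S).trans (h1 S hS))) hβ
    · rw [← Finset.sum_mul]
      exact mul_le_mul_of_nonneg_right h2 (by positivity)
  set P := U * tp c * star U with hP
  have sP : star P = P := by
    rw [hP, star_mul, star_mul, star_star, hc.proj.isSelfAdjoint.star_eq, mul_assoc]
  have nP : ‖P‖ ≤ 1 := m (m n4 n3) n5
  have e3 : X U π c k ^ 2 = ‖Q π k * P * tp π * P * Q π k‖ := by
    show ‖Q π k * P * tp π‖ ^ 2 = _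
    clear_value P
    rw [sq, ← CStarRing.norm_self_mul_star, star_mul, star_mul, sP,
      hπ.proj.isSelfAdjoint.star_eq, (Q_proj hπ k).isSelfAdjoint.star_eq]
    congr 1
    simp only [mul_assoc]
    rw [← mul_assoc (tp π) (tp π), hπ.proj.isIdempotentElem.eq]
  have e4 : Q π k * P * tp π * P =
      Q π k * (U * (fn c fun T => (p T : ℂ)) * star U) * tp π * P +
      Q π k * (U * (fn c fun T => (g T : ℂ)) * star U) * tp π * P -
      Q π k * U * ((fn c fun T => (p T : ℂ)) *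
        (Q c e * (star U * tp π * star (star U)) * tp c)) * star U := by
    conv_lhs => enter [1, 1, 2]; rw [hP, e2]
    rw [star_star, hP]
    noncomm_ring
  rw [e3]
  refine m ?_ n1
  rw [e4]
  refine (norm_sub_le _ _).trans (add_le_add ((norm_add_le _ _).trans (add_le_add (m b1 nP)
    (m (m (m' n1 (m (m' n4 ng) n5)) n2) nP))) (m (m' (m n1 n4) ?_) n5))
  exact (norm_mul_le _ _).trans (mul_le_mul_of_nonneg_right np (norm_nonneg _))

lemma round (hP : PolyStmt) {𝒰 : Set (Mat N)} (h𝒰 : ∀ U ∈ 𝒰, U ∈ unitary (Mat N) ∧ star U ∈ 𝒰)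
    {K L B : ℕ} (hK : 1 ≤ K) (hB : 1 ≤ B) (hL : 300 * (4 * N + 7 : ℝ) ≤ Real.exp L) (hM : Mon 𝒰 K)
    {k : ℕ} (hX : ∀ U ∈ 𝒰, ∀ π c, PF π → PF c → ∀ e : ℕ, k * B ≤ e →
      X U π c e ≤ 4 * Real.exp (-(e / B : ℝ))) :
    ∀ U ∈ 𝒰, ∀ π c, PF π → PF c →
      X U π c k ≤ 4 * Real.exp (-(k / (B * (2 * (4 * K * (L + 2) * L) ^ 2) : ℕ) : ℝ)) := by
  intro U hU π c hπ hc
  have L1 : 1 ≤ L := by
    rcases Nat.eq_zero_or_pos L with rfl | h
    · simp at hL
      have : (0 : ℝ) ≤ N := Nat.cast_nonneg N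
      linarith
    · exact h
  obtain ⟨w, hw⟩ : ∃ w, w = 2 * K * (L + 2) * L := ⟨_, rfl⟩
  have w1 : K ≤ w := by
    rw [hw]
    calc K ≤ 2 * K * 1 * 1 := by omega
      _ ≤ _ := by gcongr; omega
  have w0 : 0 < w := by omega
  have hδ : 4 * K * (L + 2) * L = 2 * w := by rw [hw]; ring
  rw [hδ]
  -- `D' = 2 w²`
  set F := B * (2 * w ^ 2) with hF
  have F1 : 1 ≤ F := Nat.mul_pos hB (by positivity)
  have eF : B * (2 * (2 * w) ^ 2) = 4 * F := by rw [hF]; ring
  rw [eF]
  have F0 : (0 : ℝ) < F := by exact_mod_cast F1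
  by_cases hk : k < F
  · refine (X_le_one (h𝒰 U hU).1 hπ hc k).trans ?_
    have h1 : (k : ℝ) / (4 * F : ℕ) ≤ 1 / 4 := by
      push_cast
      rw [div_le_div_iff₀ (by positivity) (by norm_num)]
      have : (k : ℝ) ≤ F := by exact_mod_cast hk.le
      linarith
    have := Real.add_one_le_exp (-((k : ℝ) / (4 * F : ℕ)))
    linarith
  push Not at hk
  set m := k / F with hm
  have m1 : 1 ≤ m := Nat.div_pos hk F1
  have m2 : m * F ≤ k := Nat.div_mul_le_self k F
  have m3 : k ≤ 2 * m * F := by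
    have := Nat.lt_mul_div_succ k F1
    rw [← hm] at this
    calc k ≤ F * (m + 1) := this.le
      _ ≤ F * (m + m) := by gcongr
      _ = _ := by ring
  obtain ⟨a, a1, a2, a3, a4⟩ := hP N m (2 * w * B) (m * (L + 1)) m1
    (Nat.mul_pos (by omega) hB)
  set r := m + 2 * w * B * (m * (L + 1)) with hr
  have he : k * B ≤ m * (2 * w * B) ^ 2 := by
    calc k * B ≤ 2 * m * F * B := Nat.mul_le_mul_right _ m3
      _ = _ := by rw [hF]; ring
  have hr1 : 2 * K * (r * L) ≤ k := by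
    have h1 : r ≤ 2 * w * B * (m * (L + 2)) := by
      rw [hr]
      have : 1 ≤ 2 * w * B := Nat.mul_pos (by omega) hB
      calc m + 2 * w * B * (m * (L + 1)) ≤ 2 * w * B * m + 2 * w * B * (m * (L + 1)) :=
            Nat.add_le_add_right (Nat.le_mul_of_pos_left _ this) _
        _ = _ := by ring
    calc 2 * K * (r * L) ≤ 2 * K * (2 * w * B * (m * (L + 2)) * L) := by gcongr
      _ = m * (B * (2 * w * (2 * K * (L + 2) * L))) := by ring
      _ = m * F := by rw [← hw, hF]; ring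
      _ ≤ k := m2
  have hm1 : 2 * K * m ≤ k := by
    refine le_trans ?_ m2
    rw [mul_comm m]
    refine Nat.mul_le_mul_right _ ?_
    calc 2 * K ≤ 2 * w := by omega
      _ ≤ 2 * (w * w) := Nat.mul_le_mul_left _ (Nat.le_mul_of_pos_left _ w0)
      _ = 2 * w ^ 2 := by ring
      _ ≤ _ := Nat.le_mul_of_pos_left _ hB
  have K0 : (0 : ℝ) < K := by exact_mod_cast hK
  have B0 : (0 : ℝ) < B := by exact_mod_cast hB
  have K1 : (1 : ℝ) ≤ K := by exact_mod_cast hK
  have hr2 : (r : ℝ) * L ≤ k / (2 * K) := by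
    rw [le_div_iff₀ (by positivity)]
    have : ((2 * K * (r * L) : ℕ) : ℝ) ≤ k := by exact_mod_cast hr1
    push_cast at this; linarith
  have hm2 : (m : ℝ) ≤ k / (2 * K) := by
    rw [le_div_iff₀ (by positivity)]
    have : ((2 * K * m : ℕ) : ℝ) ≤ k := by exact_mod_cast hm1
    push_cast at this; linarith
  have hk2 : (k : ℝ) / (2 * K) ≤ k / 2 := by gcongr; linarith
  have N0 : (0 : ℝ) ≤ N := Nat.cast_nonneg N
  have c1 := core (h𝒰 U hU).1 hπ hc k _ r a (β := 4 * Real.exp (-(k / K : ℝ))) (by positivity)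
    (by positivity) a1 a2 a3 a4 fun c' hc' => hM U hU π c' hπ hc' k
  have c2 := hX _ (h𝒰 U hU).2 c π hc hπ _ he
  have c3 : (4 * N + 7 : ℝ) ^ r * 300 ^ r ≤ Real.exp (k / (2 * K)) := by
    rw [← mul_pow, mul_comm]
    refine (pow_le_pow_left₀ (by positivity) hL r).trans ?_
    rw [← Real.exp_nat_mul]
    exact Real.exp_le_exp.2 hr2
  have c4 : (4 * N + 7 : ℝ) ^ r ≤ Real.exp (k / (2 * K)) :=
    le_trans (le_mul_of_one_le_right (by positivity) (one_le_pow₀ (by norm_num))) c3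
  have t1 : (4 * N + 7 : ℝ) ^ r * (300 ^ r * (4 * Real.exp (-(k / K : ℝ)))) ≤ 4 * Real.exp (-m) := by
    rw [← mul_assoc]
    refine (mul_le_mul_of_nonneg_right c3 (by positivity)).trans ?_
    rw [mul_left_comm, ← Real.exp_add]
    gcongr
    have : (k : ℝ) / K = 2 * (k / (2 * K)) := by field_simp
    linarith
  have t2 : (N + 1 : ℝ) ^ m / 3 ^ (m * (L + 1)) ≤ Real.exp (-m) := by
    rw [div_le_iff₀ (by positivity)]
    have h1 : (N + 1 : ℝ) ^ m ≤ Real.exp L ^ m := pow_le_pow_left₀ (by positivity) (by linarith) m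
    have h2 : Real.exp 1 ^ (m * (L + 1)) ≤ 3 ^ (m * (L + 1)) :=
      pow_le_pow_left₀ (Real.exp_pos _).le (by linarith [Real.exp_one_lt_d9]) _
    refine h1.trans (le_trans (le_of_eq ?_) (mul_le_mul_of_nonneg_left h2 (Real.exp_pos _).le))
    rw [← Real.exp_nat_mul, ← Real.exp_nat_mul, ← Real.exp_add]
    congr 1
    push_cast; ring
  have t3 : (4 * N + 7 : ℝ) ^ r * X (star U) c π (m * (2 * w * B) ^ 2) ≤ 4 * Real.exp (-m) := by
    refine (mul_le_mul c4 c2 (norm_nonneg _) (Real.exp_pos _).le).trans ?_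
    rw [mul_left_comm, ← Real.exp_add]
    gcongr
    have : (k : ℝ) ≤ (m * (2 * w * B) ^ 2 : ℕ) / B := by
      rw [le_div_iff₀ B0]; exact_mod_cast he
    linarith
  have t4 : Real.exp (-m) ≤ Real.exp (-(k / (4 * F : ℕ) : ℝ)) ^ 2 := by
    rw [← Real.exp_nat_mul]
    apply Real.exp_le_exp.2
    have : (k : ℝ) / (4 * F : ℕ) ≤ m / 2 := by
      push_cast
      rw [div_le_div_iff₀ (by positivity) (by norm_num)]
      have : (k : ℝ) ≤ (2 * m * F : ℕ) := by exact_mod_cast m3
      push_cast at this; linarith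
    push_cast at this ⊢; linarith
  refine abs_le_of_sq_le_sq' ?_ (by positivity) |>.2
  have := Real.exp_pos (-(m : ℝ))
  nlinarith

theorem step (hP : PolyStmt) : StepStmt := by
  intro N 𝒰 h𝒰 K L M n hK hM hN hL hMon
  have L1 : 1 ≤ L := by
    rcases Nat.eq_zero_or_pos L with rfl | h
    · simp at hL
      have : (0 : ℝ) ≤ N := Nat.cast_nonneg N
      linarith
    · exact h
  set D := 2 * (4 * K * (L + 2) * L) ^ 2 with hD
  have D1 : 1 ≤ D := by
    have : 0 < K := hK
    have : 0 < L := L1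
    exact Nat.succ_le_of_lt (by positivity)
  have key : ∀ i k : ℕ, N ≤ k * M ^ i → ∀ U ∈ 𝒰, ∀ π c, PF π → PF c →
      X U π c k ≤ 4 * Real.exp (-(k / (M * D ^ i : ℕ) : ℝ)) := by
    intro i
    induction i with
    | zero =>
      intro k hk U _ π c _ _
      rw [X_zero U π c (by simpa using hk)]
      positivity
    | succ i ih =>
      intro k hk
      have := round hP h𝒰 (B := M * D ^ i) hK (Nat.mul_pos hM (Nat.pow_pos D1)) hL hMon (k := k)
        fun U hU π c hπ hc e he => ih e ?_ U hU π c hπ hc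
      · rwa [← hD, mul_assoc, ← pow_succ] at this
      · calc N ≤ k * M ^ (i + 1) := hk
          _ = k * (M * 1) * M ^ i := by ring
          _ ≤ k * (M * D ^ i) * M ^ i := by gcongr; exact Nat.one_le_pow _ _ D1
          _ ≤ e * M ^ i := Nat.mul_le_mul_right _ he
  intro U hU π c hπ hc k
  rcases Nat.eq_zero_or_pos k with rfl | hk
  · have := X_le_one (h𝒰 U hU).1 hπ hc 0
    simp only [Nat.cast_zero, zero_div, neg_zero, Real.exp_zero]
    linarith
  · exact key n k (hN.trans (Nat.le_mul_of_pos_left _ hk)) U hU π c hπ hc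

end Crest.Agent.QAC
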