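import Crest.Agent.QAC.Defs

/-! Basic lemmas on tensor products of one-qubit operators. -/

set_option autoImplicit false
open Finset
open scoped Matrix.Norms.L2Operator

namespace Crest.Agent.QAC
variable {N : ℕ}

lemma tp_apply (c : Fin N → M2) (x y : Fin N → Bool) : tp c x y = ∏ i, c i (x i) (y i) := rfl

lemma tp_mul (c d : Fin N → M2) : tp c * tp d = tp fun i => c i * d i := by
  ext x y
  simp only [Matrix.mul_apply, tp_apply, ← Finset.prod_mul_distrib]
  rw [Finset.prod_univ_sum, Fintype.piFinset_univ]

lemma tp_one : tp (fun _ : Fin N => (1 : M2)) = 1 := by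
  ext x y
  simp only [tp_apply, Matrix.one_apply, Finset.prod_ite_zero, Finset.prod_const_one, mem_univ,
    true_imp_iff, funext_iff]

lemma star_tp (c : Fin N → M2) : star (tp c) = tp fun i => star (c i) := by
  ext x y
  simp [tp_apply, Matrix.star_apply]

lemma tp_eq_zero {c : Fin N → M2} (i : Fin N) (h : c i = 0) : tp c = 0 := by
  ext x y
  exact Finset.prod_eq_zero (mem_univ i) (by simp [h])

lemma tp_update (c : Fin N → M2) (i : Fin N) (a : M2) (x y : Fin N → Bool) :
    tp (Function.update c i a) x y = a (x i) (y i) * ∏ j ∈ univ.erase i, c j (x j) (y j) := by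
  rw [tp_apply, ← Finset.mul_prod_erase _ _ (mem_univ i), Function.update_self]
  congr 1
  exact Finset.prod_congr rfl fun j hj => by rw [Function.update_of_ne (Finset.ne_of_mem_erase hj)]

lemma tp_update_add (c : Fin N → M2) (i : Fin N) (a b : M2) :
    tp (Function.update c i (a + b)) = tp (Function.update c i a) + tp (Function.update c i b) := by
  ext x y
  simp [tp_update, add_mul]

lemma tp_update_smul (c : Fin N → M2) (i : Fin N) (z : ℂ) (a : M2) :
    tp (Function.update c i (z • a)) = z • tp (Function.update c i a) := by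
  ext x y
  simp [tp_update, mul_assoc]

lemma tp_add (a b : Fin N → M2) :
    tp (fun i => a i + b i) = ∑ T : Finset (Fin N), tp fun i => if i ∈ T then a i else b i := by
  ext x y
  simp only [tp_apply, Matrix.add_apply, Matrix.sum_apply]
  rw [Finset.prod_add, Finset.powerset_univ]
  refine Finset.sum_congr rfl fun T _ => ?_
  rw [← Finset.compl_eq_univ_sdiff, ← Finset.prod_mul_prod_compl T]
  congr 1
  · exact Finset.prod_congr rfl fun i hi => by rw [if_pos hi]
  · exact Finset.prod_congr rfl fun i hi => by rw [if_neg (Finset.mem_compl.1 hi)]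

lemma PF.proj {c : Fin N → M2} (h : PF c) : IsStarProjection (tp c) := by
  constructor
  · rw [IsIdempotentElem, tp_mul]
    congr 1
    funext i
    exact (h i).isIdempotentElem.eq
  · rw [IsSelfAdjoint, star_tp]
    congr 1
    funext i
    exact (h i).isSelfAdjoint.star_eq

lemma PF.ite {π : Fin N → M2} (h : PF π) (T : Finset (Fin N)) :
    PF fun i => if i ∈ T then 1 - π i else π i := fun i => by
  dsimp only
  split_ifs
  · exact (h i).one_sub
  · exact h i

lemma E_proj {π : Fin N → M2} (h : PF π) (T : Finset (Fin N)) : IsStarProjection (E π T) :=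
  (h.ite T).proj

lemma E_mul {π : Fin N → M2} (h : PF π) (T T' : Finset (Fin N)) :
    E π T * E π T' = if T = T' then E π T else 0 := by
  split_ifs with hT
  · subst hT; exact (E_proj h T).isIdempotentElem.eq
  · obtain ⟨i, hi⟩ : ∃ i, ¬ (i ∈ T ↔ i ∈ T') := by
      by_contra hc
      push Not at hc
      exact hT (Finset.ext hc)
    rw [E, E, tp_mul]
    refine tp_eq_zero i ?_
    by_cases h1 : i ∈ T <;> by_cases h2 : i ∈ T'
    · exact absurd (by simp [h1, h2]) hi
    · simp [h1, h2, sub_mul, (h i).isIdempotentElem.eq]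
    · simp [h1, h2, mul_sub, (h i).isIdempotentElem.eq]
    · exact absurd (by simp [h1, h2]) hi

lemma E_sum (π : Fin N → M2) : ∑ T, E π T = 1 := by
  simp only [E]
  rw [← tp_add, ← tp_one]
  simp

lemma E_empty (π : Fin N → M2) : E π ∅ = tp π := by simp [E]

/-- functions of the excited set -/
noncomputable def fn (π : Fin N → M2) (f : Finset (Fin N) → ℂ) : Mat N := ∑ T, f T • E π T

lemma fn_mul {π : Fin N → M2} (h : PF π) (f g : Finset (Fin N) → ℂ) :
    fn π f * fn π g = fn π fun T => f T * g T := by
  simp only [fn, Finset.sum_mul, Finset.mul_sum, smul_mul_smul_comm, E_mul h, smul_ite, smul_zero]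
  refine Finset.sum_congr rfl fun T _ => ?_
  rw [Finset.sum_ite_eq']
  simp

lemma star_fn {π : Fin N → M2} (h : PF π) (f : Finset (Fin N) → ℂ) :
    star (fn π f) = fn π fun T => star (f T) := by
  simp only [fn, star_sum, star_smul, (E_proj h _).isSelfAdjoint.star_eq]

lemma fn_one (π : Fin N → M2) : fn π (fun _ => 1) = 1 := by simp [fn, E_sum]

lemma Q_eq (π : Fin N → M2) (k : ℕ) : Q π k = fn π fun T => if k < T.card then 1 else 0 := by
  simp [Q, fn]

lemma Q_proj {π : Fin N → M2} (h : PF π) (k : ℕ) : IsStarProjection (Q π k) := by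
  rw [Q_eq]
  constructor
  · rw [IsIdempotentElem, fn_mul h]
    congr 1
    funext T
    split_ifs <;> simp
  · rw [IsSelfAdjoint, star_fn h]
    congr 1
    funext T
    split_ifs <;> simp

lemma norm_unitary_le {U : Mat N} (h : U ∈ unitary (Mat N)) : ‖U‖ ≤ 1 :=
  (CStarRing.norm_of_mem_unitary h).le

lemma norm_fn_le {π : Fin N → M2} (h : PF π) (f : Finset (Fin N) → ℝ) {b : ℝ} (hb : 0 < b)
    (hf : ∀ T, |f T| ≤ b) : ‖fn π fun T => (f T : ℂ)‖ ≤ b := by
  let u : Finset (Fin N) → ℂ := fun T => (f T / b : ℝ) + Complex.I * (√(1 - (f T / b) ^ 2) : ℝ)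
  have hu : ∀ T, star (u T) * u T = 1 := fun T => by
    have h1 : 0 ≤ 1 - (f T / b) ^ 2 := by
      rw [sub_nonneg, sq_le_one_iff_abs_le_one, abs_div, abs_of_pos hb, div_le_one hb]
      exact hf T
    have h2 := Real.sq_sqrt h1
    apply Complex.ext
    · simp only [u, star_add, star_mul, RCLike.star_def, Complex.conj_ofReal, Complex.conj_I]
      simp only [Complex.mul_re, Complex.add_re, Complex.add_im, Complex.mul_im, Complex.ofReal_re,
        Complex.ofReal_im, Complex.neg_re, Complex.neg_im, Complex.I_re, Complex.I_im, Complex.one_re]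
      nlinarith
    · simp only [u, star_add, star_mul, RCLike.star_def, Complex.conj_ofReal, Complex.conj_I]
      simp only [Complex.mul_re, Complex.add_re, Complex.add_im, Complex.mul_im, Complex.ofReal_re,
        Complex.ofReal_im, Complex.neg_re, Complex.neg_im, Complex.I_re, Complex.I_im, Complex.one_im]
      ring
  have hU : fn π u ∈ unitary (Mat N) := by
    rw [Unitary.mem_iff, star_fn h, fn_mul h, fn_mul h]
    simp only [hu, mul_comm (u _), fn_one, and_self]
  have e : (fn π fun T => (f T : ℂ)) = ((b / 2 : ℝ) : ℂ) • (fn π u + star (fn π u)) := by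
    rw [star_fn h]
    simp only [fn, ← Finset.sum_add_distrib, ← add_smul, Finset.smul_sum, smul_smul]
    refine Finset.sum_congr rfl fun T _ => ?_
    congr 1
    have : (b : ℂ) ≠ 0 := by exact_mod_cast hb.ne'
    simp only [u, star_add, star_mul, RCLike.star_def, Complex.conj_ofReal, Complex.conj_I]
    push_cast
    field_simp
    ring
  rw [e, norm_smul, Complex.norm_real, Real.norm_of_nonneg (by positivity)]
  have h1 := norm_add_le (fn π u) (star (fn π u))
  rw [norm_star] at h1
  have h2 := norm_unitary_le hU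
  nlinarith

end Crest.Agent.QAC
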